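import Vale.Agent.P080C1.Exist.Exists

/-!
The Euler-Lagrange equation of a minimiser whose Lipschitz constraint is inactive, and the converse.
-/

noncomputable section

open MeasureTheory Filter Topology Metric Set
open scoped NNReal RealInnerProductSpace Gradient

namespace Vale.Agent.P080C1.Exist

set_option linter.unusedSectionVars false

variable {E : Type*} [NormedAddCommGroup E] [InnerProductSpace ℝ E] [FiniteDimensional ℝ E]
  [MeasurableSpace E] [BorelSpace E]

variable {κ : ℝ} {L L' K : ℝ≥0} {U : Set E} {u φ : E → ℝ}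

theorem ae_gradient_add_mul (hu : LipschitzWith L u) (hφ : LipschitzWith K φ) (t : ℝ) :
    ∀ᵐ x : E, gradient (fun y => u y + t * φ y) x = gradient u x + t • gradient φ x := by
  filter_upwards [hu.ae_differentiableAt, hφ.ae_differentiableAt] with x h1 h2
  have h : HasFDerivAt (fun y => u y + t * φ y) (fderiv ℝ u x + t • fderiv ℝ φ x) x :=
    h1.hasFDerivAt.add (h2.hasFDerivAt.const_mul t)
  simp [gradient, h.fderiv]

theorem el_ge_zero (hκ : 0 < κ) (hU : Bornology.IsBounded U) (hu : IsMin κ L U u)
    (hu' : LipschitzWith L' u) (hL : L' < L) (hφ : LipschitzWith K φ) (h0 : ∀ x ∉ U, φ x = 0) :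
    0 ≤ ∫ x in U, dens κ L (gradient u x) * ⟪gradient u x, gradient φ x⟫ := by
  have hsmall : ∀ t : ℝ, 0 < t → t * K ≤ (L : ℝ) - L' →
      LipschitzWith L fun y => u y + t * φ y := fun t ht htK => by
    refine LipschitzWith.of_dist_le_mul fun x y => ?_
    have h1 := hu'.dist_le_mul x y
    have h2 := hφ.dist_le_mul x y
    rw [Real.dist_eq] at h1 h2 ⊢
    have h3 : |t * (φ x - φ y)| ≤ t * (K * dist x y) := by
      rw [abs_mul, abs_of_pos ht]; exact mul_le_mul_of_nonneg_left h2 ht.le
    rw [show u x + t * φ x - (u y + t * φ y) = (u x - u y) + t * (φ x - φ y) by ring]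
    have h4 := abs_add_le (u x - u y) (t * (φ x - φ y))
    have h5 : t * K * dist x y ≤ ((L : ℝ) - L') * dist x y :=
      mul_le_mul_of_nonneg_right htK dist_nonneg
    nlinarith
  set F : ℝ → E → ℝ := fun t x =>
    dens κ L (gradient u x + t • gradient φ x) * ⟪gradient u x + t • gradient φ x, gradient φ x⟫
    with hF
  have hev : ∀ᶠ t : ℝ in 𝓝[>] 0, 0 < t ∧ t * K ≤ (L : ℝ) - L' := by
    have hpos : 0 < (L : ℝ) - L' := sub_pos.2 (by exact_mod_cast hL)
    have : ∀ᶠ t : ℝ in 𝓝 0, t * K < (L : ℝ) - L' :=
      ((continuous_id.mul continuous_const).tendsto (0 : ℝ)).eventually_lt_const (by simpa using hpos)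
    filter_upwards [self_mem_nhdsWithin, mem_nhdsWithin_of_mem_nhds this] with t a b
    exact ⟨a, b.le⟩
  have hnorm : ∀ t : ℝ, 0 < t → t * K ≤ (L : ℝ) - L' → ∀ x,
      ‖gradient u x + t • gradient φ x‖ ≤ L := fun t ht htK x => by
    refine (norm_add_le _ _).trans ?_
    rw [norm_smul, Real.norm_eq_abs, abs_of_pos ht]
    have h1 := norm_gradient_le hu' x
    have h2 := mul_le_mul_of_nonneg_left (norm_gradient_le hφ x) ht.le
    linarith
  have hmeas : ∀ t, AEStronglyMeasurable (F t) (volume.restrict U) := fun t =>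
    (((continuous_dens κ L).measurable.comp
      ((measurable_gradient u).add ((measurable_gradient φ).const_smul t))).mul
      (((measurable_gradient u).add ((measurable_gradient φ).const_smul t)).inner
        (measurable_gradient φ))).aestronglyMeasurable
  have hbd : ∀ t : ℝ, 0 < t → t * K ≤ (L : ℝ) - L' → ∀ x, ‖F t x‖ ≤ (L : ℝ) * K := by
    intro t ht htK x
    simp only [hF, norm_mul, Real.norm_eq_abs, abs_of_pos (dens_pos _ _ _)]
    calc _ ≤ 1 * ((L : ℝ) * K) := mul_le_mul (dens_le_one hκ (hnorm t ht htK x))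
          ((abs_real_inner_le_norm _ _).trans (mul_le_mul (hnorm t ht htK x)
            (norm_gradient_le hφ x) (norm_nonneg _) L.coe_nonneg)) (abs_nonneg _) zero_le_one
      _ = _ := one_mul _
  have hpos : ∀ᶠ t : ℝ in 𝓝[>] 0, 0 ≤ ∫ x in U, F t x := by
    filter_upwards [hev] with t ⟨ht, htK⟩
    have hw := hsmall t ht htK
    have h1 := hu.2 _ hw (fun x hx => by simp [h0 x hx])
    have h2 := gradient_mid_pair hκ hU hw hu.1
    have h3 : ∫ x in U, (dens κ L (gradient (fun y => u y + t * φ y) x) *
        ⟪gradient (fun y => u y + t * φ y) x,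
          gradient u x - gradient (fun y => u y + t * φ y) x⟫ / κ) =
        -(t / κ) * ∫ x in U, F t x := by
      rw [← integral_const_mul]
      refine integral_congr_ae (ae_restrict_of_ae ?_)
      filter_upwards [ae_gradient_add_mul hu.1 hφ t] with x hx
      simp only [hx, hF, sub_add_cancel_left, inner_neg_right, real_inner_smul_right]
      ring
    rw [h3] at h2
    have h4 : 0 ≤ t / κ * ∫ x in U, F t x := by linarith
    exact nonneg_of_mul_nonneg_right h4 (div_pos ht hκ)
  have hlim : Tendsto (fun t => ∫ x in U, F t x) (𝓝[>] 0)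
      (𝓝 (∫ x in U, dens κ L (gradient u x) * ⟪gradient u x, gradient φ x⟫)) := by
    refine tendsto_integral_filter_of_dominated_convergence (fun _ => (L : ℝ) * K)
      (Eventually.of_forall hmeas) ?_ (integrableOn_const hU.measure_lt_top.ne) ?_
    · filter_upwards [hev] with t ⟨ht, htK⟩
      exact Eventually.of_forall (hbd t ht htK)
    · refine Eventually.of_forall fun x => ?_
      have hc : Continuous fun t : ℝ => F t x := by
        simp only [hF]
        exact ((continuous_dens κ L).comp (by fun_prop)).mul (by fun_prop)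
      simpa [hF] using (hc.tendsto 0).mono_left nhdsWithin_le_nhds
  exact ge_of_tendsto hlim hpos

/-- Euler-Lagrange equation. -/
theorem IsMin.euler_lagrange (hκ : 0 < κ) (hU : Bornology.IsBounded U) (hu : IsMin κ L U u)
    (hu' : LipschitzWith L' u) (hL : L' < L) (hφ : LipschitzWith K φ) (h0 : ∀ x ∉ U, φ x = 0) :
    ∫ x in U, dens κ L (gradient u x) * ⟪gradient u x, gradient φ x⟫ = 0 := by
  have h1 := el_ge_zero hκ hU hu hu' hL hφ h0
  have h2 := el_ge_zero hκ hU hu hu' hL hφ.neg (fun x hx => by simp [h0 x hx])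
  have hneg : ∀ x, gradient (-φ) x = -gradient φ x := fun x => by simp [gradient, fderiv_neg]
  simp only [hneg, inner_neg_right, mul_neg, integral_neg] at h2
  linarith

end Vale.Agent.P080C1.Exist
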