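import Vale.Agent.P080C1.Exist.Super
import Vale.Agent.P080C1.Exist.EL

/-!
The boundary barrier and the Lipschitz bound, uniform in `κ ≤ 1`.
-/

noncomputable section

open MeasureTheory Filter Topology Metric Set
open scoped NNReal RealInnerProductSpace Gradient ContDiff Pointwise

namespace Vale.Agent.P080C1.Exist

set_option linter.unusedSectionVars false

variable {E : Type*} [NormedAddCommGroup E] [InnerProductSpace ℝ E] [FiniteDimensional ℝ E]

/-- The exponential barrier with centre `c`. -/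
def bar (A μ r0 : ℝ) (c : E) (x : E) : ℝ :=
  A * (Real.exp (-μ * r0 ^ 2) - Real.exp (-μ * ‖x - c‖ ^ 2))

theorem contDiff_bar (A μ r0 : ℝ) (c : E) : ContDiff ℝ 2 (bar A μ r0 c) :=
  contDiff_const.mul (contDiff_const.sub
    (Real.contDiff_exp.comp (contDiff_const.mul ((contDiff_id.sub contDiff_const).norm_sq ℝ))))

theorem hasFDerivAt_bar (A μ r0 : ℝ) (c x : E) :
    HasFDerivAt (bar A μ r0 c)
      ((2 * A * μ * Real.exp (-μ * ‖x - c‖ ^ 2)) • innerSL ℝ (x - c)) x := by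
  have h := (((((hasFDerivAt_id (𝕜 := ℝ) x).sub_const c).norm_sq).const_mul (-μ)).exp.const_sub
    (Real.exp (-μ * r0 ^ 2))).const_mul A
  refine h.congr_fderiv ?_
  refine ContinuousLinearMap.ext fun v => ?_
  simp
  ring

theorem lipschitzWith_bar {A μ : ℝ} (hA : 0 ≤ A) (hμ : 0 < μ) (r0 : ℝ) (c : E) :
    LipschitzWith (A * Real.sqrt μ).toNNReal (bar A μ r0 c) := by
  refine lipschitzWith_of_nnnorm_fderiv_le (fun x => (hasFDerivAt_bar A μ r0 c x).differentiableAt)
    fun x => ?_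
  rw [← NNReal.coe_le_coe, coe_nnnorm, (hasFDerivAt_bar A μ r0 c x).fderiv, norm_smul,
    Real.norm_eq_abs, innerSL_apply_norm, Real.coe_toNNReal _ (by positivity),
    abs_of_nonneg (by positivity)]
  set s := ‖x - c‖
  set q := Real.sqrt μ with hq
  have hq2 : q ^ 2 = μ := Real.sq_sqrt hμ.le
  have h1 : 2 * (q * s) ≤ Real.exp (μ * s ^ 2) := by
    have := Real.add_one_le_exp (μ * s ^ 2)
    nlinarith [sq_nonneg (q * s - 1)]
  calc 2 * A * μ * Real.exp (-μ * s ^ 2) * s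
      = A * q * (2 * (q * s)) * Real.exp (-μ * s ^ 2) := by rw [← hq2]; ring
    _ ≤ A * q * Real.exp (μ * s ^ 2) * Real.exp (-μ * s ^ 2) := by gcongr
    _ = A * q := by rw [mul_assoc, ← Real.exp_add]; simp

/-- The gradient of `f + bar` and its derivative. -/
theorem gradient_add_bar {f : E → ℝ} (hf : ContDiff ℝ 2 f) (A μ r0 : ℝ) (c : E) :
    gradient (fun x => f x + bar A μ r0 c x) =
      fun x => gradient f x + (2 * A * μ * Real.exp (-μ * ‖x - c‖ ^ 2)) • (x - c) := by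
  funext x
  have h := (hf.differentiable (by simp) x).hasFDerivAt.fun_add (hasFDerivAt_bar A μ r0 c x)
  refine ext_inner_right ℝ fun v => ?_
  rw [inner_gradient_left, h.fderiv, inner_add_left, inner_gradient_left, real_inner_smul_left]
  simp [inner_sub_left]

theorem bar_ineq {n t M η κ μ r0 G : ℝ} {g y : E} (hn : 0 ≤ n) (hκ : 0 < κ)
    (hκ1 : κ ≤ 1) (hr0 : 0 < r0) (hy : r0 ≤ ‖y‖) (hμ : μ = 11 / r0 ^ 2) (hM : 0 ≤ M)
    (hηM : M ≤ η) (hη : 0 < η) (hG : 0 ≤ G) (hg : ‖g - η • y‖ ≤ G)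
    (hη2 : (2 * G + 2 * n + 1) ≤ η * r0) {Hg : ℝ} (hH : Hg ≤ M * ‖g‖ ^ 2) (ht : t ≤ n * M) :
    t + n * η - 2 * μ * η * ‖y‖ ^ 2 + (Hg + η * ‖g‖ ^ 2 - 2 * μ * η * ⟪y, g⟫ ^ 2) / κ ≤ 0 := by
  have hy0 : 0 < ‖y‖ := hr0.trans_le hy
  have hz : ‖η • y‖ = η * ‖y‖ := by rw [norm_smul, Real.norm_eq_abs, abs_of_pos hη]
  have hbig : 2 * G + 2 * n + 1 ≤ η * ‖y‖ :=
    hη2.trans (mul_le_mul_of_nonneg_left hy hη.le)
  have hgn : ‖g‖ ≤ 3 / 2 * (η * ‖y‖) := by
    have := norm_le_norm_add_norm_sub' g (η • y)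
    rw [hz] at this
    linarith
  have hgy : η * ‖y‖ ^ 2 / 2 ≤ ⟪y, g⟫ := by
    have h1 : ⟪y, g⟫ = η * ‖y‖ ^ 2 + ⟪y, g - η • y⟫ := by
      rw [inner_sub_right, real_inner_smul_right, real_inner_self_eq_norm_sq]; ring
    have h2 := (abs_le.1 (abs_real_inner_le_norm y (g - η • y))).1
    have h3 : ‖y‖ * ‖g - η • y‖ ≤ ‖y‖ * (η * ‖y‖ / 2) :=
      mul_le_mul_of_nonneg_left (by linarith) (norm_nonneg _)
    rw [h1]
    nlinarith
  have hg2 : ‖g‖ ^ 2 ≤ 9 / 4 * (η ^ 2 * ‖y‖ ^ 2) := by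
    refine (pow_le_pow_left₀ (norm_nonneg g) hgn 2).trans (le_of_eq ?_)
    ring
  have hgy2 : η ^ 2 * (‖y‖ ^ 2) ^ 2 / 4 ≤ ⟪y, g⟫ ^ 2 := by
    refine le_trans (le_of_eq ?_) (pow_le_pow_left₀ (by positivity) hgy 2)
    ring
  have hμ0 : 0 < μ := by rw [hμ]; positivity
  have hμy : 11 ≤ μ * ‖y‖ ^ 2 := by
    have e : μ * r0 ^ 2 = 11 := by rw [hμ]; field_simp
    have := mul_le_mul_of_nonneg_left (pow_le_pow_left₀ hr0.le hy 2) hμ0.le
    linarith
  have hq : 2 * n + 1 ≤ η ^ 2 * ‖y‖ ^ 2 := by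
    have h1 : (2 * n + 1) ^ 2 ≤ (η * ‖y‖) ^ 2 := pow_le_pow_left₀ (by positivity) (by linarith) 2
    have h2 : (2 * n + 1) * 1 ≤ (2 * n + 1) * (2 * n + 1) :=
      mul_le_mul_of_nonneg_left (by linarith) (by linarith)
    have h3 : (η * ‖y‖) ^ 2 = η ^ 2 * ‖y‖ ^ 2 := by ring
    nlinarith
  set Q := η ^ 2 * ‖y‖ ^ 2 with hQ
  have hQ0 : 0 ≤ Q := by positivity
  have hinner : Hg + η * ‖g‖ ^ 2 - 2 * μ * η * ⟪y, g⟫ ^ 2 ≤ -(η * Q) := by
    have a1 : Hg + η * ‖g‖ ^ 2 ≤ 2 * η * (9 / 4 * Q) := by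
      have := mul_le_mul_of_nonneg_right hηM (sq_nonneg ‖g‖)
      have := mul_le_mul_of_nonneg_left hg2 (show 0 ≤ 2 * η by positivity)
      linarith
    have a2 : 2 * μ * η * (η ^ 2 * (‖y‖ ^ 2) ^ 2 / 4) ≤ 2 * μ * η * ⟪y, g⟫ ^ 2 :=
      mul_le_mul_of_nonneg_left hgy2 (by positivity)
    have a3 : 2 * μ * η * (η ^ 2 * (‖y‖ ^ 2) ^ 2 / 4) = η * Q * (μ * ‖y‖ ^ 2) / 2 := by
      rw [hQ]; ring
    have a4 : η * Q * 11 ≤ η * Q * (μ * ‖y‖ ^ 2) :=
      mul_le_mul_of_nonneg_left hμy (by positivity)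
    linarith
  have hdiv : (Hg + η * ‖g‖ ^ 2 - 2 * μ * η * ⟪y, g⟫ ^ 2) / κ ≤ -(η * Q) := by
    rw [div_le_iff₀ hκ]
    have : η * Q * κ ≤ η * Q * 1 := mul_le_mul_of_nonneg_left hκ1 (by positivity)
    linarith
  have h5 : η * (2 * n + 1) ≤ η * Q := mul_le_mul_of_nonneg_left hq hη.le
  have h6 : n * M ≤ n * η := mul_le_mul_of_nonneg_left hηM hn
  have h7 : 0 ≤ 2 * μ * η * ‖y‖ ^ 2 := by positivity
  linarith

variable [MeasurableSpace E] [BorelSpace E] [Nontrivial E]

theorem isMin_translate {κ : ℝ} {L : ℝ≥0} {U : Set E} {u : E → ℝ} (hu : IsMin κ L U u) (h : E) :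
    IsMin κ L ((· + h) ⁻¹' U) fun x => u (x + h) := by
  have he : ∀ w : E → ℝ,
      energy κ L ((· + h) ⁻¹' U) (fun x => w (x + h)) = energy κ L U w := fun w => by
    have hg : ∀ x, gradient (fun y => w (y + h)) x = gradient w (x + h) := fun x => by
      simp [gradient, fderiv_comp_add_right]
    simp only [energy, hg]
    exact (measurePreserving_add_right volume h).setIntegral_preimage_emb
      (Homeomorph.addRight h).measurableEmbedding (fun x => dens κ L (gradient w x)) U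
  refine ⟨hu.1.comp (isometry_add_right h).lipschitz |>.weaken (by simp), fun w hw h0 => ?_⟩
  have hw' : LipschitzWith L fun x => w (x - h) :=
    (hw.comp ((isometry_add_right (-h)).lipschitz)).weaken (by simp) |> fun t => by
      simpa [Function.comp_def, sub_eq_add_neg] using t
  have h1 := hu.2 _ hw' fun x hx => by
    have := h0 (x - h) (by simpa using hx)
    simpa using this
  rw [he u]
  refine h1.trans (le_of_eq ?_)
  rw [← he fun x => w (x - h)]
  simp

variable {D : Set E} {f : E → ℝ} {L' : ℝ≥0}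

/-- A minimiser which is Lipschitz at the boundary is Lipschitz. -/
theorem lipschitz_of_boundary {κ : ℝ} {L : ℝ≥0} {u : E → ℝ} (hκ : 0 < κ)
    (hDb : Bornology.IsBounded D) (hDo : IsOpen D) (hfL : LipschitzWith L' f)
    (hu : IsMin κ L D u) (hu0 : ∀ x ∉ D, u x = f x)
    (hfr : ∀ y ∈ frontier D, ∀ x ∈ D, |u x - f y| ≤ L' * dist x y) : LipschitzWith L' u := by
  obtain ⟨R, hR⟩ := hDb.subset_closedBall (0 : E)
  have hoff : ∀ x y, y ∉ D → |u x - u y| ≤ L' * dist x y := by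
    intro x y hy
    rw [hu0 y hy]
    by_cases hx : x ∈ D
    · obtain ⟨z, hz, hz1, hz2⟩ := isPreconnected_closed_iff.1 (convex_segment x y).isPreconnected
        (closure D) Dᶜ isClosed_closure hDo.isClosed_compl
        (fun w _ => (em (w ∈ D)).imp (fun h => subset_closure h) id)
        ⟨x, left_mem_segment ℝ x y, subset_closure hx⟩ ⟨y, right_mem_segment ℝ x y, hy⟩
      have hzf : z ∈ frontier D := by
        rw [hDo.frontier_eq]; exact ⟨hz1, hz2⟩
      have hd := dist_add_dist_of_mem_segment hz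
      have h1 := hfr z hzf x hx
      have h2 : |f z - f y| ≤ L' * dist z y := by
        have := hfL.dist_le_mul z y
        rw [Real.dist_eq] at this
        exact this.trans (mul_le_mul_of_nonneg_right (le_refl _) dist_nonneg)
      calc |u x - f y| ≤ |u x - f z| + |f z - f y| := abs_sub_le ..
        _ ≤ L' * dist x z + L' * dist z y := add_le_add h1 h2
        _ = L' * dist x y := by rw [← mul_add, hd]
    · rw [hu0 x hx]
      have := hfL.dist_le_mul x y
      rw [Real.dist_eq] at this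
      exact this.trans (mul_le_mul_of_nonneg_right (le_refl _) dist_nonneg)
  have htr : ∀ x h, u (x + h) ≤ u x + L' * ‖h‖ := by
    intro x h
    set V := D ∩ (· + h) ⁻¹' D with hV
    have hVo : IsOpen V := hDo.inter (hDo.preimage (continuous_add_const h))
    have hVb : Bornology.IsBounded V := hDb.subset inter_subset_left
    have hsb : Bornology.IsBounded ((· + h) ⁻¹' D) := by
      refine (isBounded_iff_subset_closedBall (0 : E)).2 ⟨R + ‖h‖, fun z hz => ?_⟩
      have h1 : ‖z + h‖ ≤ R := by simpa using hR hz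
      simpa using (norm_le_add_norm_add z h).trans (by linarith : ‖z + h‖ + ‖h‖ ≤ R + ‖h‖)
    have hm1 : IsMin κ L V fun x => u (x + h) := (isMin_translate hu h).mono hκ hsb
      (hDo.preimage (continuous_add_const h)).measurableSet inter_subset_right hVo
    have hm2 : IsMin κ L V fun x => u x + L' * ‖h‖ :=
      (hu.mono hκ hDb hDo.measurableSet inter_subset_left hVo).add_const _
    refine hm1.le_of_le hκ hVb hm2 (fun z hz => ?_) x
    have key : |u (z + h) - u z| ≤ L' * ‖h‖ := by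
      by_cases h1 : z ∈ D
      · have h2 : z + h ∉ D := fun h2 => hz ⟨h1, h2⟩
        have := hoff z (z + h) h2
        rwa [abs_sub_comm, dist_eq_norm, sub_add_cancel_left, norm_neg] at this
      · have := hoff (z + h) z h1
        rwa [dist_eq_norm, add_sub_cancel_left] at this
    linarith [(abs_le.1 key).2]
  refine LipschitzWith.of_dist_le_mul fun x y => ?_
  rw [Real.dist_eq, dist_eq_norm, abs_le]
  constructor
  · have := htr x (y - x)
    rw [add_sub_cancel, norm_sub_rev] at this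
    linarith
  · have := htr y (x - y)
    rw [add_sub_cancel] at this
    linarith

end Vale.Agent.P080C1.Exist
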