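import Vale.Agent.P080C1.Exist.Barrier

/-!
On convex domains the Lipschitz bound depends only on the Lipschitz constant of the data, as soon
as `κ` is small compared with the inverse of the Hessian bound of the data.
-/

noncomputable section

open MeasureTheory Filter Topology Metric Set
open scoped NNReal RealInnerProductSpace Gradient ContDiff

namespace Vale.Agent.P080C1.Exist

set_option linter.unusedSectionVars false

variable {E : Type*} [NormedAddCommGroup E] [InnerProductSpace ℝ E] [FiniteDimensional ℝ E]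

/-- The barrier away from the boundary layer. -/
def outer (a μ τ : ℝ) (c x : E) : ℝ := a * Real.sqrt (‖x - c‖ ^ 2 + τ ^ 2) - μ * ‖x - c‖ ^ 2

theorem sq_norm_add_pos {τ : ℝ} (hτ : τ ≠ 0) (z : E) : 0 < ‖z‖ ^ 2 + τ ^ 2 := by
  have := pow_pos (abs_pos.2 hτ) 2
  rw [sq_abs] at this
  positivity

theorem hasFDerivAt_smoothNorm {τ : ℝ} (hτ : τ ≠ 0) (c x : E) :
    HasFDerivAt (fun y => Real.sqrt (‖y - c‖ ^ 2 + τ ^ 2))
      ((1 / Real.sqrt (‖x - c‖ ^ 2 + τ ^ 2)) • innerSL ℝ (x - c)) x := by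
  have h := ((((hasFDerivAt_id (𝕜 := ℝ) x).sub_const c).norm_sq).add_const (τ ^ 2)).sqrt
    (sq_norm_add_pos hτ _).ne'
  refine h.congr_fderiv ?_
  refine ContinuousLinearMap.ext fun v => ?_
  simp
  ring

theorem contDiff_outer {τ : ℝ} (hτ : τ ≠ 0) (a μ : ℝ) (c : E) :
    ContDiff ℝ 2 (outer a μ τ c) :=
  (contDiff_const.mul ((((contDiff_id.sub contDiff_const).norm_sq ℝ).add contDiff_const).sqrt
    fun _ => (sq_norm_add_pos hτ _).ne')).sub
    (contDiff_const.mul ((contDiff_id.sub contDiff_const).norm_sq ℝ))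

theorem gradient_outer {τ : ℝ} (hτ : τ ≠ 0) (b a μ : ℝ) (c : E) :
    gradient (fun x => b + outer a μ τ c x) =
      fun x => (a / Real.sqrt (‖x - c‖ ^ 2 + τ ^ 2) - 2 * μ) • (x - c) := by
  funext x
  have h := ((((hasFDerivAt_smoothNorm hτ c x).const_mul a).fun_sub
    ((((hasFDerivAt_id (𝕜 := ℝ) x).sub_const c).norm_sq).const_mul μ))).const_add b
  refine ext_inner_right ℝ fun v => ?_
  rw [inner_gradient_left]
  unfold outer
  simp only [id] at h
  rw [h.fderiv, real_inner_smul_left]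
  simp [inner_sub_left]
  ring

/-- The outer barrier is a supersolution. -/
theorem outer_super {a μ τ σ R κ b : ℝ} {c x : E} (hτ : 0 < τ) (hσ : 0 < σ) (hτσ : τ ≤ σ)
    (hκ : 0 < κ) (ha : 0 < a) (hμ : 0 ≤ μ) (hμR : 8 * μ * R ≤ a) (hτμ : a * τ ^ 2 ≤ μ * σ ^ 3)
    (hκb : 16 * κ * Module.finrank ℝ E ≤ μ * a * σ) (hx1 : σ ≤ ‖x - c‖) (hx2 : ‖x - c‖ ≤ R) :
    trace (fderiv ℝ (gradient fun x => b + outer a μ τ c x) x) +
      ⟪gradient (fun x => b + outer a μ τ c x) x,
        fderiv ℝ (gradient fun x => b + outer a μ τ c x) x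
          (gradient (fun x => b + outer a μ τ c x) x)⟫ / κ ≤ 0 := by
  rw [gradient_outer hτ.ne']
  set z := x - c with hz
  set r := ‖z‖ with hr
  set s := Real.sqrt (r ^ 2 + τ ^ 2) with hs
  have hr0 : 0 < r := hσ.trans_le hx1
  have hs2 : s ^ 2 = r ^ 2 + τ ^ 2 := Real.sq_sqrt (by positivity)
  have hs0 : 0 < s := Real.sqrt_pos.2 (by positivity)
  have hrs : r ≤ s := by
    rw [hs]; exact Real.le_sqrt_of_sq_le (by nlinarith [sq_nonneg τ])
  have hsr : s ≤ 2 * r := Real.sqrt_le_iff.2 ⟨by positivity, by nlinarith⟩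
  set m := a / s - 2 * μ with hm
  have hd : HasFDerivAt (fun y => (a / Real.sqrt (‖y - c‖ ^ 2 + τ ^ 2) - 2 * μ) • (y - c))
      (m • ContinuousLinearMap.id ℝ E + ((-a / s ^ 3) • innerSL ℝ z).smulRight z) x := by
    have h1 : HasFDerivAt (fun y => a / Real.sqrt (‖y - c‖ ^ 2 + τ ^ 2) - 2 * μ)
        ((-a / s ^ 3) • innerSL ℝ z) x := by
      have hinv := (hasDerivAt_inv hs0.ne').comp_hasFDerivAt x (hasFDerivAt_smoothNorm hτ.ne' c x)
      refine ((hinv.const_mul a).sub_const (2 * μ)).congr_fderiv ?_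
      refine ContinuousLinearMap.ext fun v => ?_
      simp [← hz, ← hr, ← hs]
      field_simp
    exact h1.smul ((hasFDerivAt_id (𝕜 := ℝ) x).sub_const c)
  rw [hd.fderiv, trace_add, trace_smul, trace_id, trace_smulRight]
  simp only [← hz, ← hr, ← hs, ← hm, add_apply, _root_.smul_apply, ContinuousLinearMap.id_apply,
    ContinuousLinearMap.smulRight_apply, innerSL_apply_apply, smul_eq_mul, inner_add_right]
  simp only [real_inner_smul_right, real_inner_smul_left]
  simp only [real_inner_self_eq_norm_sq, ← hr]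
  have e : m * (m * (m * r ^ 2)) + -a / s ^ 3 * (m * r ^ 2) * (m * r ^ 2) =
      m ^ 2 * r ^ 2 * (a * τ ^ 2 / s ^ 3 - 2 * μ) := by
    have : a / s - a * r ^ 2 / s ^ 3 = a * τ ^ 2 / s ^ 3 := by
      field_simp
      rw [hs2]
      ring
    rw [← this, hm]
    field_simp
    ring
  rw [e]
  have hmlow : a / (4 * r) ≤ m := by
    have h1 : a / (2 * r) ≤ a / s := div_le_div_of_nonneg_left ha.le hs0 hsr
    have h2 : 2 * μ * r ≤ a / 4 := by nlinarith
    have h3 : a / (2 * r) - a / (4 * r) = a / (4 * r) := by field_simp; ring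
    have h4 : 2 * μ ≤ a / (4 * r) := by rw [le_div_iff₀ (by positivity)]; linarith
    linarith
  have hmr : a / 4 ≤ m * r := by
    have := mul_le_mul_of_nonneg_right hmlow hr0.le
    rwa [div_mul_eq_mul_div, mul_div_mul_right _ _ hr0.ne'] at this
  have hmup : m ≤ a / σ := by
    have : a / s ≤ a / σ := div_le_div_of_nonneg_left ha.le hσ (hx1.trans hrs)
    linarith
  have hneg : a * τ ^ 2 / s ^ 3 - 2 * μ ≤ -μ := by
    have h1 : a * τ ^ 2 / s ^ 3 ≤ a * τ ^ 2 / σ ^ 3 :=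
      div_le_div_of_nonneg_left (by positivity) (by positivity)
        (pow_le_pow_left₀ hσ.le (hx1.trans hrs) 3)
    have h2 : a * τ ^ 2 / σ ^ 3 ≤ μ := by rw [div_le_iff₀ (by positivity)]; exact hτμ
    linarith
  have hq : m ^ 2 * r ^ 2 * (a * τ ^ 2 / s ^ 3 - 2 * μ) ≤ -(μ * (a / 4) ^ 2) := by
    have h1 : (a / 4) ^ 2 ≤ m ^ 2 * r ^ 2 := by
      rw [← mul_pow]; exact pow_le_pow_left₀ (by positivity) hmr 2
    have h2 := mul_le_mul_of_nonneg_left hneg (show 0 ≤ m ^ 2 * r ^ 2 by positivity)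
    have h3 := mul_le_mul_of_nonneg_left h1 hμ
    linarith
  have hdiv : m ^ 2 * r ^ 2 * (a * τ ^ 2 / s ^ 3 - 2 * μ) / κ ≤
      -(Module.finrank ℝ E * (a / σ)) := by
    rw [div_le_iff₀ hκ]
    refine hq.trans ?_
    rw [← sub_nonneg]
    have : -(Module.finrank ℝ E * (a / σ)) * κ - -(μ * (a / 4) ^ 2) =
        a * (μ * a * σ - 16 * κ * Module.finrank ℝ E) / (16 * σ) := by field_simp; ring
    rw [this]
    exact div_nonneg (mul_nonneg ha.le (sub_nonneg.2 hκb)) (by positivity)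
  have htr : -a / s ^ 3 * r ^ 2 ≤ 0 :=
    mul_nonpos_of_nonpos_of_nonneg (div_nonpos_of_nonpos_of_nonneg (by linarith) (by positivity))
      (sq_nonneg r)
  have hnm := mul_le_mul_of_nonneg_left hmup (Nat.cast_nonneg (α := ℝ) (Module.finrank ℝ E))
  linarith

variable [MeasurableSpace E] [BorelSpace E] [Nontrivial E]

/-- The inner barrier is a supersolution. -/
theorem bar_super {f : E → ℝ} (hf2 : ContDiff ℝ 2 f) {Lf : ℝ≥0} (hfL : LipschitzWith Lf f)
    {M ηm σ κ : ℝ} (hM0 : 0 ≤ M) (hM : ∀ x, ‖fderiv ℝ (gradient f) x‖ ≤ M) (hκ : 0 < κ)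
    (hκ1 : κ ≤ 1) (hσ : 0 < σ) (hηM : M ≤ ηm)
    (hηl : 2 * (Lf : ℝ) + 2 * Module.finrank ℝ E + 1 ≤ ηm * σ) {μ A : ℝ} (hμ : μ = 11 / σ ^ 2)
    (hA : A = ηm * Real.exp (μ * (2 * σ) ^ 2) / (2 * μ)) {c x : E} (hx1 : σ ≤ ‖x - c‖)
    (hx2 : ‖x - c‖ ≤ 2 * σ) :
    trace (fderiv ℝ (gradient fun x => f x + bar A μ σ c x) x) +
      ⟪gradient (fun x => f x + bar A μ σ c x) x,
        fderiv ℝ (gradient fun x => f x + bar A μ σ c x) x
          (gradient (fun x => f x + bar A μ σ c x) x)⟫ / κ ≤ 0 := by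
  have hμ0 : 0 < μ := by rw [hμ]; positivity
  have hηm0 : 0 < ηm := by
    have : 0 < ηm * σ := lt_of_lt_of_le (by positivity) hηl
    exact pos_of_mul_pos_left this hσ.le
  set n : ℝ := (Module.finrank ℝ E : ℝ) with hn
  set z := x - c with hz
  set η := 2 * A * μ * Real.exp (-μ * ‖z‖ ^ 2) with hη
  have hηlow : ηm ≤ η := by
    have e : η = ηm * Real.exp (μ * (2 * σ) ^ 2 - μ * ‖z‖ ^ 2) := by
      rw [hη, hA, sub_eq_add_neg, Real.exp_add, neg_mul]; field_simp
    rw [e]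
    refine le_mul_of_one_le_right hηm0.le (Real.one_le_exp ?_)
    have := mul_le_mul_of_nonneg_left (pow_le_pow_left₀ (norm_nonneg z) hx2 2) hμ0.le
    linarith
  have hgrad := gradient_add_bar hf2 A μ σ c
  have hder : HasFDerivAt (gradient fun x => f x + bar A μ σ c x)
      (fderiv ℝ (gradient f) x + (η • ContinuousLinearMap.id ℝ E +
        ((-2 * μ * η) • innerSL ℝ z).smulRight z)) x := by
    rw [hgrad]
    refine ((contDiff_gradient hf2).differentiable one_ne_zero x).hasFDerivAt.fun_add ?_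
    have he : HasFDerivAt (fun x => 2 * A * μ * Real.exp (-μ * ‖x - c‖ ^ 2))
        ((-2 * μ * η) • innerSL ℝ z) x := by
      refine ((((((hasFDerivAt_id (𝕜 := ℝ) x).sub_const c).norm_sq).const_mul (-μ)).exp).const_mul
        (2 * A * μ)).congr_fderiv ?_
      refine ContinuousLinearMap.ext fun v => ?_
      simp [hη, hz]
      ring
    exact he.smul ((hasFDerivAt_id (𝕜 := ℝ) x).sub_const c)
  rw [hder.fderiv, trace_add, trace_add, trace_smul, trace_id, trace_smulRight]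
  have key := bar_ineq (t := trace (fderiv ℝ (gradient f) x)) (n := n) (M := M)
    (η := η) (G := (Lf : ℝ)) (g := gradient (fun x => f x + bar A μ σ c x) x) (y := z)
    (κ := κ) (μ := μ) (r0 := σ)
    (Hg := ⟪gradient (fun x => f x + bar A μ σ c x) x,
      fderiv ℝ (gradient f) x (gradient (fun x => f x + bar A μ σ c x) x)⟫)
    (by positivity) hκ hκ1 hσ hx1 hμ hM0
    (hηM.trans hηlow) (hηm0.trans_le hηlow) Lf.coe_nonneg
    (by
      have hgx : gradient (fun x => f x + bar A μ σ c x) x = gradient f x + η • z := by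
        rw [hgrad]
      rw [hgx, add_sub_cancel_right]; exact norm_gradient_le hfL x)
    (hηl.trans (mul_le_mul_of_nonneg_right hηlow hσ.le))
    (by
      refine (real_inner_le_norm _ _).trans ?_
      rw [sq, ← mul_assoc, mul_comm M, mul_assoc]
      exact mul_le_mul_of_nonneg_left
        ((ContinuousLinearMap.le_opNorm _ _).trans
          (mul_le_mul_of_nonneg_right (hM x) (norm_nonneg _))) (norm_nonneg _))
    ((le_abs_self _).trans ((abs_trace_le _).trans
      (mul_le_mul_of_nonneg_left (hM x) (Nat.cast_nonneg _))))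
  refine le_trans (le_of_eq ?_) key
  generalize gradient (fun x => f x + bar A μ σ c x) x = g0
  simp [hn, inner_add_right, inner_neg_right, real_inner_smul_right,
    real_inner_comm g0 z, real_inner_self_eq_norm_sq]
  ring

/-- The slope of the two-stage barrier. -/
def slopeBound (Lf : ℝ≥0) (n : ℝ) : ℝ≥0 :=
  Lf + ((2 * (Lf : ℝ) + 2 * n + 1) * Real.exp 44 * Real.sqrt 11 / 22).toNNReal +
    (2 * (4 * Lf + 1) + Lf) + 4 * (4 * Lf + 1)

theorem abs_min_sq_sub_le {R a b : ℝ} (hR : 0 ≤ R) (ha : 0 ≤ a) (hb : 0 ≤ b) :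
    |min a R ^ 2 - min b R ^ 2| ≤ 2 * R * |a - b| := by
  rw [sq_sub_sq, abs_mul, abs_of_nonneg (by positivity : 0 ≤ min a R + min b R)]
  refine mul_le_mul (by linarith [min_le_right a R, min_le_right b R]) ?_ (abs_nonneg _)
    (by positivity)
  refine (abs_min_sub_min_le_max a R b R).trans ?_
  simp

theorem lipschitzWith_outer_cut {a μ τ R b : ℝ} {c : E} (ha : 0 ≤ a) (hμ : 0 ≤ μ) (hR : 0 ≤ R)
    (hτ : τ ≠ 0) :
    LipschitzWith (a + 2 * μ * R).toNNReal
      (fun x => b + (a * Real.sqrt (‖x - c‖ ^ 2 + τ ^ 2) - μ * min ‖x - c‖ R ^ 2)) := by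
  refine LipschitzWith.of_dist_le_mul fun p q => ?_
  rw [Real.dist_eq, Real.coe_toNNReal _ (by positivity)]
  set sp := Real.sqrt (‖p - c‖ ^ 2 + τ ^ 2)
  set sq' := Real.sqrt (‖q - c‖ ^ 2 + τ ^ 2)
  have h1 : |sp - sq'| ≤ dist p q := by
    have hl : LipschitzWith 1 fun y => Real.sqrt (‖y - c‖ ^ 2 + τ ^ 2) := by
      refine lipschitzWith_of_nnnorm_fderiv_le
        (fun y => (hasFDerivAt_smoothNorm hτ c y).differentiableAt) fun y => ?_
      rw [← NNReal.coe_le_coe, coe_nnnorm, (hasFDerivAt_smoothNorm hτ c y).fderiv, norm_smul,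
        innerSL_apply_norm, Real.norm_eq_abs, abs_of_nonneg (by positivity), NNReal.coe_one,
        div_mul_eq_mul_div, one_mul, div_le_one (Real.sqrt_pos.2 (sq_norm_add_pos hτ _))]
      exact Real.le_sqrt_of_sq_le (by nlinarith [sq_nonneg τ])
    simpa [Real.dist_eq] using hl.dist_le_mul p q
  have h2 : |min ‖p - c‖ R ^ 2 - min ‖q - c‖ R ^ 2| ≤ 2 * R * dist p q := by
    refine (abs_min_sq_sub_le hR (norm_nonneg _) (norm_nonneg _)).trans ?_
    refine mul_le_mul_of_nonneg_left ?_ (by positivity)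
    refine (abs_norm_sub_norm_le _ _).trans (le_of_eq ?_)
    rw [sub_sub_sub_cancel_right, dist_eq_norm]
  have e : b + (a * sp - μ * min ‖p - c‖ R ^ 2) - (b + (a * sq' - μ * min ‖q - c‖ R ^ 2)) =
      a * (sp - sq') - μ * (min ‖p - c‖ R ^ 2 - min ‖q - c‖ R ^ 2) := by ring
  rw [e]
  refine (abs_sub _ _).trans ?_
  rw [abs_mul, abs_mul, abs_of_nonneg ha, abs_of_nonneg hμ]
  have := mul_le_mul_of_nonneg_left h1 ha
  have := mul_le_mul_of_nonneg_left h2 hμ
  linarith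

variable {D : Set E} {f : E → ℝ} {Lf : ℝ≥0}

/-- Away from the boundary layer a minimiser is below the outer barrier. -/
theorem le_outer (hDb : Bornology.IsBounded D) (hDo : IsOpen D) (hfL : LipschitzWith Lf f)
    {σ R κ : ℝ} (hσ : 0 < σ) (hσ1 : σ ≤ 1) (hR1 : 1 ≤ R) (hκ : 0 < κ)
    (hκb : κ ≤ σ / (128 * R * (Module.finrank ℝ E + 1))) {L : ℝ≥0}
    (hL : 2 * (4 * (Lf : ℝ) + 1) ≤ L) {u : E → ℝ} (hu : IsMin κ L D u) (hu0 : ∀ x ∉ D, u x = f x)
    {y c : E} (hc : ‖y - c‖ = σ) (hout : ∀ x ∈ D, σ ≤ ‖x - c‖) (hin : ∀ x ∈ D, ‖x - c‖ ≤ R) :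
    ∀ x ∈ D, u x ≤ f y + 2 * (4 * Lf + 1) * ‖x - c‖ := by
  set a : ℝ := 4 * (Lf : ℝ) + 1 with ha
  have ha1 : 1 ≤ a := by rw [ha]; linarith [Lf.coe_nonneg]
  set μ := a / (8 * R) with hμ
  set τ := σ ^ 2 / (8 * R) with hτ
  have hR0 : 0 < R := one_pos.trans_le hR1
  have hτ0 : 0 < τ := by positivity
  have hμ0 : 0 < μ := by positivity
  have hμR : 8 * μ * R = a := by rw [hμ]; field_simp
  have hτσ : τ ≤ σ := by rw [hτ, div_le_iff₀ (by positivity)]; nlinarith
  have hτμ : a * τ ^ 2 ≤ μ * σ ^ 3 := by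
    rw [hτ, hμ, div_pow, mul_div_assoc', div_mul_eq_mul_div,
      div_le_div_iff₀ (by positivity) (by positivity)]
    have h1 : σ * 1 ≤ 1 * (8 * R) := mul_le_mul hσ1 (by linarith) zero_le_one zero_le_one
    have h2 := mul_le_mul_of_nonneg_left h1 (show 0 ≤ a * σ ^ 3 * (8 * R) by positivity)
    nlinarith
  have hκb' : 16 * κ * Module.finrank ℝ E ≤ μ * a * σ := by
    rw [le_div_iff₀ (by positivity)] at hκb
    have h1 : 16 * κ * Module.finrank ℝ E * (8 * R) ≤ 1 * 1 * σ := by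
      nlinarith [mul_pos hκ hR0]
    have h2 : 1 * 1 * σ ≤ a * a * σ :=
      mul_le_mul_of_nonneg_right (mul_le_mul ha1 ha1 zero_le_one (by linarith)) hσ.le
    rw [hμ, div_mul_eq_mul_div, div_mul_eq_mul_div, le_div_iff₀ (by positivity)]
    linarith
  set Ψ : E → ℝ := fun x => f y + outer a μ τ c x with hΨ
  set φ : E → ℝ :=
    fun x => f y + (a * Real.sqrt (‖x - c‖ ^ 2 + τ ^ 2) - μ * min ‖x - c‖ R ^ 2) with hφ
  set ψ : E → ℝ := fun x => max (φ x) (f x) with hψ
  have hfle : ∀ x, f x ≤ f y + Lf * (‖x - c‖ + σ) := fun x => by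
    have h1 := hfL.dist_le_mul x y
    rw [Real.dist_eq] at h1
    have h2 : dist x y ≤ ‖x - c‖ + σ := by
      rw [← hc, ← dist_eq_norm, ← dist_eq_norm]; exact dist_triangle_right x y c
    have := mul_le_mul_of_nonneg_left h2 Lf.coe_nonneg
    linarith [le_abs_self (f x - f y)]
  have hlow : ∀ x ∈ D, f x ≤ Ψ x := fun x hx => by
    refine (hfle x).trans ?_
    have hs : ‖x - c‖ ≤ Real.sqrt (‖x - c‖ ^ 2 + τ ^ 2) :=
      Real.le_sqrt_of_sq_le (by nlinarith [sq_nonneg τ])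
    have h1 := mul_le_mul_of_nonneg_left hs (show 0 ≤ a by linarith)
    have h2 : μ * ‖x - c‖ ^ 2 ≤ μ * R * ‖x - c‖ := by
      rw [mul_assoc, sq]
      exact mul_le_mul_of_nonneg_left (mul_le_mul_of_nonneg_right (hin x hx) (norm_nonneg _)) hμ0.le
    have h3 : μ * R * ‖x - c‖ = a / 8 * ‖x - c‖ := by rw [← hμR]; ring
    have h4 : (Lf : ℝ) * σ ≤ Lf * ‖x - c‖ := mul_le_mul_of_nonneg_left (hout x hx) Lf.coe_nonneg
    have h5 : 0 ≤ Lf * ‖x - c‖ := by positivity
    have h6 : a * ‖x - c‖ = 4 * (Lf * ‖x - c‖) + ‖x - c‖ := by rw [ha]; ring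
    simp only [hΨ, outer]
    linarith [norm_nonneg (x - c)]
  have heq : EqOn ψ Ψ D := fun x hx => by
    have : φ x = Ψ x := by simp [hφ, hΨ, outer, min_eq_left (hin x hx)]
    show max (φ x) (f x) = Ψ x
    rw [this, max_eq_left (hlow x hx)]
  have hψL : LipschitzWith L ψ := by
    refine ((lipschitzWith_outer_cut (by linarith) hμ0.le hR0.le hτ0.ne').max hfL).weaken ?_
    rw [← NNReal.coe_le_coe, NNReal.coe_max, max_le_iff, Real.coe_toNNReal _ (by positivity)]
    constructor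
    · linarith
    · linarith [Lf.coe_nonneg]
  have hsup := energy_le_of_super hκ hDb hDo hψL (contDiff_const.add (contDiff_outer hτ0.ne' a μ c))
    heq (fun x hx => outer_super hτ0 hσ hτσ hκ (by linarith) hμ0.le hμR.le hτμ hκb' (hout x hx)
      (hin x hx))
  have h := hu.le_super hκ hDb hψL hsup (fun x hx => by rw [hu0 x hx]; exact le_max_right _ _)
  intro x hx
  refine (h x).trans ?_
  rw [heq hx]
  simp only [hΨ, outer]
  have hs : Real.sqrt (‖x - c‖ ^ 2 + τ ^ 2) ≤ 2 * ‖x - c‖ :=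
    Real.sqrt_le_iff.2 ⟨by positivity, by nlinarith [hout x hx]⟩
  have h1 := mul_le_mul_of_nonneg_left hs (show 0 ≤ a by linarith)
  have h2 : 0 ≤ μ * ‖x - c‖ ^ 2 := by positivity
  linarith

/-- Upper bound at the boundary. -/
theorem upper_bound (hDb : Bornology.IsBounded D) (hDo : IsOpen D) (hconv : Convex ℝ D)
    (hf2 : ContDiff ℝ 2 f) (hfL : LipschitzWith Lf f) {M : ℝ} (hM0 : 0 ≤ M)
    (hM : ∀ x, ‖fderiv ℝ (gradient f) x‖ ≤ M) {R : ℝ} (hR0 : 0 ≤ R) (hR : D ⊆ closedBall 0 R)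
    {κ : ℝ} (hκ : 0 < κ) (hκ1 : κ ≤ 1)
    (hκb : κ ≤ 1 / (M + 1) / (128 * (2 * R + 1) * (Module.finrank ℝ E + 1))) {L : ℝ≥0}
    (hL : slopeBound Lf (Module.finrank ℝ E) ≤ L) {u : E → ℝ} (hu : IsMin κ L D u)
    (hu0 : ∀ x ∉ D, u x = f x) {y : E} (hy : y ∈ frontier D) (x : E) (hx : x ∈ D) :
    u x - f y ≤ slopeBound Lf (Module.finrank ℝ E) * dist x y := by
  set n : ℝ := (Module.finrank ℝ E : ℝ) with hn
  set σ := 1 / (M + 1) with hσ
  have hσ0 : 0 < σ := by positivity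
  have hσ1 : σ ≤ 1 := by rw [hσ, div_le_one (by positivity)]; linarith
  obtain ⟨l, hl⟩ := geometric_hahn_banach_open_point hconv hDo
    fun h => (hDo.frontier_eq ▸ hy).2 h
  set v := (InnerProductSpace.toDual ℝ E).symm l with hv
  have hvl : ∀ z, ⟪v, z⟫ = l z := fun z => InnerProductSpace.toDual_symm_apply
  have hv0 : 0 < ‖v‖ := norm_pos_iff.2 fun h0 => by
    have := hl x hx
    rw [← hvl, ← hvl, h0, inner_zero_left, inner_zero_left] at this
    exact lt_irrefl _ this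
  set c := y + (σ / ‖v‖) • v with hc
  have hyc : ‖y - c‖ = σ := by
    rw [hc, sub_add_cancel_left, norm_neg, norm_smul, Real.norm_eq_abs,
      abs_of_pos (by positivity), div_mul_cancel₀ _ hv0.ne']
  have hout : ∀ z ∈ D, σ ≤ ‖z - c‖ := fun z hz => by
    have h1 : ⟪v, z - y⟫ < 0 := by rw [inner_sub_right, hvl, hvl]; linarith [hl z hz]
    have h2 : ⟪v, z - c⟫ = ⟪v, z - y⟫ - σ * ‖v‖ := by
      rw [hc, ← sub_sub, inner_sub_right, real_inner_smul_right, real_inner_self_eq_norm_sq]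
      field_simp
    have h3 := (abs_le.1 (abs_real_inner_le_norm v (z - c))).1
    have h4 : σ * ‖v‖ ≤ ‖z - c‖ * ‖v‖ := by linarith
    exact le_of_mul_le_mul_right h4 hv0
  have hyR : ‖y‖ ≤ R := by
    have := closure_minimal hR isClosed_closedBall (frontier_subset_closure hy)
    simpa using this
  have hin : ∀ z ∈ D, ‖z - c‖ ≤ 2 * R + 1 := fun z hz => by
    have h1 : ‖z‖ ≤ R := by simpa using hR hz
    have h2 : ‖c‖ ≤ R + σ := by
      have := norm_le_norm_add_norm_sub' c y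
      rw [norm_sub_rev, hyc] at this
      linarith
    linarith [norm_sub_le z c]
  set a : ℝ := 4 * (Lf : ℝ) + 1 with ha
  set C : ℝ := (2 * (Lf : ℝ) + 2 * n + 1) * Real.exp 44 * Real.sqrt 11 / 22 with hC
  have hC0 : 0 ≤ C := by positivity
  have hB : ((slopeBound Lf n : ℝ≥0) : ℝ) = Lf + C + (2 * a + Lf) + 4 * a := by
    simp [slopeBound, ← hC, Real.coe_toNNReal _ hC0, ha]
  have hL' : ((slopeBound Lf n : ℝ≥0) : ℝ) ≤ L := NNReal.coe_le_coe.2 hL
  have hout' := le_outer hDb hDo hfL hσ0 hσ1 (by linarith) hκ hκb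
    (by linarith [Lf.coe_nonneg]) hu hu0 hyc hout hin
  -- the inner stage
  set μ := 11 / σ ^ 2 with hμ
  set ηm := (2 * (Lf : ℝ) + 2 * n + 1) / σ with hηm
  have hηmσ : ηm * σ = 2 * (Lf : ℝ) + 2 * n + 1 := by rw [hηm]; field_simp
  set A := ηm * Real.exp (μ * (2 * σ) ^ 2) / (2 * μ) with hA
  have hA0 : 0 < A := by positivity
  have hμσ : μ * (2 * σ) ^ 2 = 44 := by rw [hμ]; field_simp; ring
  set g := bar A μ σ c with hg
  set K : ℝ := 2 * a + Lf with hK
  set ψ : E → ℝ := fun z => f z + max (g z) 0 + K * max 0 (‖z - c‖ - 2 * σ) with hψ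
  set S := D ∩ ball c (2 * σ) with hS
  have hψL : LipschitzWith (slopeBound Lf n) ψ := by
    refine LipschitzWith.of_dist_le_mul fun p q => ?_
    rw [hB, Real.dist_eq]
    have h1 := hfL.dist_le_mul p q
    have h2 := ((lipschitzWith_bar hA0.le (show 0 < μ by positivity) σ c).max_const 0).dist_le_mul p q
    have h2' : A * Real.sqrt μ = C := by
      rw [hA, hμσ, hηm, hC, hμ, Real.sqrt_div (by norm_num), Real.sqrt_sq hσ0.le]
      field_simp
      ring
    rw [Real.coe_toNNReal _ (by positivity), h2', Real.dist_eq, ← hg] at h2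
    rw [Real.dist_eq] at h1
    have h3 : |max 0 (‖p - c‖ - 2 * σ) - max 0 (‖q - c‖ - 2 * σ)| ≤ dist p q := by
      refine (abs_max_sub_max_le_max _ _ _ _).trans (max_le (by simp) ?_)
      rw [sub_sub_sub_cancel_right]
      refine (abs_norm_sub_norm_le _ _).trans (le_of_eq ?_)
      rw [sub_sub_sub_cancel_right, dist_eq_norm]
    have hK0 : 0 ≤ K := by positivity
    have h4 := mul_le_mul_of_nonneg_left h3 hK0
    have e : ψ p - ψ q = (f p - f q) + (max (g p) 0 - max (g q) 0) +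
        K * (max 0 (‖p - c‖ - 2 * σ) - max 0 (‖q - c‖ - 2 * σ)) := by simp only [hψ]; ring
    rw [e]
    refine (abs_add_le _ _).trans ?_
    rw [abs_mul, abs_of_nonneg hK0]
    have := abs_add_le (f p - f q) (max (g p) 0 - max (g q) 0)
    have : (0 : ℝ) ≤ a * dist p q := by positivity
    linarith
  have hgS : ∀ z ∈ D, 0 ≤ g z := fun z hz => by
    refine mul_nonneg hA0.le (sub_nonneg.2 (Real.exp_le_exp.2 ?_))
    have := mul_le_mul_of_nonneg_left (pow_le_pow_left₀ hσ0.le (hout z hz) 2)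
      (show 0 ≤ μ by positivity)
    linarith
  have hsup := energy_le_of_super (L := L) (U := S) hκ (hDb.subset inter_subset_left)
    (hDo.inter isOpen_ball) (hψL.weaken hL) (hf2.add (contDiff_bar A μ σ c))
    (fun z hz => by
      have h2 : ‖z - c‖ - 2 * σ ≤ 0 := by
        have := mem_ball.1 hz.2; rw [dist_eq_norm] at this; linarith
      show f z + max (g z) 0 + K * max 0 (‖z - c‖ - 2 * σ) = f z + g z
      rw [max_eq_left (hgS z hz.1), max_eq_left h2, mul_zero, add_zero])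
    (fun z hz => bar_super hf2 hfL hM0 hM hκ hκ1 hσ0
      (by
        rw [hηm, le_div_iff₀ hσ0, hσ, mul_one_div, div_le_iff₀ (by positivity)]
        have hn0 : 0 ≤ n := Nat.cast_nonneg _
        nlinarith [Lf.coe_nonneg])
      hηmσ.ge hμ hA (hout z hz.1) (by
        have := mem_ball.1 hz.2; rw [dist_eq_norm] at this; exact this.le))
  have hg2σ : ∀ z, 2 * σ ≤ ‖z - c‖ → (4 * a + 3 * Lf) * σ ≤ g z := fun z hz => by
    have h1 : Real.exp (-μ * ‖z - c‖ ^ 2) ≤ Real.exp (-44) := by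
      refine Real.exp_le_exp.2 ?_
      have := mul_le_mul_of_nonneg_left (pow_le_pow_left₀ (by positivity) hz 2)
        (show 0 ≤ μ by positivity)
      rw [hμσ] at this
      linarith
    have h2 : Real.exp (-μ * σ ^ 2) = Real.exp (-11) := by rw [hμ]; field_simp
    have hA' : A = (2 * (Lf : ℝ) + 2 * n + 1) * σ * Real.exp 44 / 22 := by
      rw [hA, hμσ, hηm, hμ]; field_simp; ring
    have h3 : A * (Real.exp (-11) - Real.exp (-44)) ≤ g z := by
      simp only [hg, bar, h2]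
      exact mul_le_mul_of_nonneg_left (by linarith) hA0.le
    have h4 : Real.exp 44 * (Real.exp (-11) - Real.exp (-44)) = Real.exp 33 - 1 := by
      rw [mul_sub, ← Real.exp_add, ← Real.exp_add]; norm_num
    have h5 : (1000 : ℝ) ≤ Real.exp 33 := by
      have : Real.exp 33 = Real.exp 1 ^ (33 : ℕ) := by rw [← Real.exp_nat_mul]; norm_num
      rw [this]
      calc (1000 : ℝ) ≤ 2 ^ (33 : ℕ) := by norm_num
        _ ≤ _ := pow_le_pow_left₀ (by norm_num) (by linarith [Real.add_one_le_exp (1 : ℝ)]) _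
    have h6 : A * (Real.exp (-11) - Real.exp (-44)) =
        (2 * (Lf : ℝ) + 2 * n + 1) * σ * (Real.exp 33 - 1) / 22 := by
      rw [← h4, hA']; ring
    rw [h6] at h3
    refine le_trans ?_ h3
    rw [le_div_iff₀ (by norm_num)]
    have hn0 : 0 ≤ n := Nat.cast_nonneg _
    have h7 : (4 * a + 3 * Lf) * 22 ≤ (2 * (Lf : ℝ) + 2 * n + 1) * (Real.exp 33 - 1) := by
      refine le_trans ?_ (mul_le_mul_of_nonneg_left (show (999 : ℝ) ≤ Real.exp 33 - 1 by linarith)
        (by positivity))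
      rw [ha]; linarith [Lf.coe_nonneg]
    have := mul_le_mul_of_nonneg_right h7 hσ0.le
    linarith
  have hpt : ∀ z, z ∉ S → u z ≤ ψ z := fun z hz => by
    have h0 : 0 ≤ K * max 0 (‖z - c‖ - 2 * σ) := mul_nonneg (by positivity) (le_max_left _ _)
    by_cases hzD : z ∈ D
    · have hr : 2 * σ ≤ ‖z - c‖ := by
        by_contra hc'
        exact hz ⟨hzD, mem_ball.2 (by rw [dist_eq_norm]; exact not_le.1 hc')⟩
      have h1 := hout' z hzD
      have h2 := hfL.dist_le_mul y z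
      rw [Real.dist_eq] at h2
      have h3 : dist y z ≤ ‖z - c‖ + σ := by
        rw [← hyc, ← dist_eq_norm, ← dist_eq_norm, dist_comm z c]
        linarith [dist_triangle y c z]
      have h4 := mul_le_mul_of_nonneg_left h3 Lf.coe_nonneg
      have h5 := hg2σ z hr
      simp only [hψ]
      rw [max_eq_left (hgS z hzD), max_eq_right (show 0 ≤ ‖z - c‖ - 2 * σ by linarith)]
      have h6 : K * (‖z - c‖ - 2 * σ) + (4 * a + 3 * Lf) * σ =
          2 * a * ‖z - c‖ + Lf * (‖z - c‖ + σ) := by rw [hK]; ring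
      linarith [le_abs_self (f y - f z)]
    · rw [hu0 z hzD]
      simp only [hψ]
      linarith [le_max_right (g z) 0]
  have h := (hu.mono hκ hDb hDo.measurableSet inter_subset_left (hDo.inter isOpen_ball)).le_super
    hκ (hDb.subset inter_subset_left) (hψL.weaken hL) hsup hpt x
  have hψy : ψ y = f y := by
    have hgy : g y = 0 := by simp [hg, bar, hyc]
    show f y + max (g y) 0 + K * max 0 (‖y - c‖ - 2 * σ) = f y
    rw [hgy, max_self, hyc, max_eq_left (by linarith), mul_zero, add_zero, add_zero]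
  have h2 := hψL.dist_le_mul x y
  rw [Real.dist_eq, hψy] at h2
  linarith [le_abs_self (ψ x - f y)]

/-- Lipschitz bound depending only on the Lipschitz constant of the data. -/
theorem exists_lip_bound (Lf : ℝ≥0) :
    ∃ L' : ℝ≥0, Lf ≤ L' ∧ ∀ (D : Set E) (f : E → ℝ) (M : ℝ), Bornology.IsBounded D → IsOpen D →
      Convex ℝ D → ContDiff ℝ 2 f → LipschitzWith Lf f →
      (∀ x, ‖fderiv ℝ (gradient f) x‖ ≤ M) →
      ∃ κ₀ : ℝ, 0 < κ₀ ∧ κ₀ ≤ 1 ∧ ∀ κ, 0 < κ → κ ≤ κ₀ → ∀ L, L' ≤ L → ∀ u, IsMin κ L D u →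
        (∀ x ∉ D, u x = f x) → LipschitzWith L' u := by
  refine ⟨slopeBound Lf (Module.finrank ℝ E), ?_, fun D f M hDb hDo hconv hf2 hfL hM => ?_⟩
  · rw [slopeBound, add_assoc, add_assoc]; exact le_self_add
  obtain ⟨R₀, hR₀⟩ := hDb.subset_closedBall (0 : E)
  set R := max R₀ 0
  have hR : D ⊆ closedBall 0 R := hR₀.trans (closedBall_subset_closedBall (le_max_left ..))
  have hR0 : 0 ≤ R := le_max_right ..
  have hM0 : 0 ≤ M := (norm_nonneg _).trans (hM 0)
  refine ⟨min 1 (1 / (M + 1) / (128 * (2 * R + 1) * (Module.finrank ℝ E + 1))),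
    lt_min one_pos (by positivity), min_le_left _ _, fun κ hκ hκ' L hL u hu hu0 => ?_⟩
  have hLf : Lf ≤ slopeBound Lf (Module.finrank ℝ E) := by
    rw [slopeBound, add_assoc, add_assoc]; exact le_self_add
  refine lipschitz_of_boundary hκ hDb hDo (hfL.weaken hLf) hu hu0 fun y hy x hx => ?_
  have h1 := upper_bound hDb hDo hconv hf2 hfL hM0 hM hR0 hR hκ (hκ'.trans (min_le_left _ _))
    (hκ'.trans (min_le_right _ _)) hL hu hu0 hy x hx
  have hM' : ∀ x, ‖fderiv ℝ (gradient fun y => -f y) x‖ ≤ M := fun x => by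
    have : gradient (fun y => -f y) = -gradient f := funext fun y => by
      simp [gradient, fderiv_fun_neg]
    rw [this, fderiv_neg, norm_neg]; exact hM x
  have h2 := upper_bound hDb hDo hconv hf2.neg hfL.neg hM0 hM' hR0 hR hκ
    (hκ'.trans (min_le_left _ _)) (hκ'.trans (min_le_right _ _)) hL hu.neg
    (fun x hx => by simp [hu0 x hx]) hy x hx
  rw [abs_le]
  constructor <;> linarith

/-- Minimisers with uniform Lipschitz bound exist. -/
theorem exists_approx (Lf : ℝ≥0) :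
    ∃ L' : ℝ≥0, ∀ (D : Set E) (f : E → ℝ) (M : ℝ), Bornology.IsBounded D → IsOpen D →
      Convex ℝ D → ContDiff ℝ 2 f → LipschitzWith Lf f →
      (∀ x, ‖fderiv ℝ (gradient f) x‖ ≤ M) →
      ∃ κ₀ : ℝ, 0 < κ₀ ∧ κ₀ ≤ 1 ∧ ∀ κ, 0 < κ → κ ≤ κ₀ →
        ∃ u, IsMin κ (L' + 1) D u ∧ LipschitzWith L' u ∧ ∀ x ∉ D, u x = f x := by
  obtain ⟨L', hLf, h⟩ := exists_lip_bound (E := E) Lf
  refine ⟨L', fun D f M hDb hDo hconv hf2 hfL hM => ?_⟩
  obtain ⟨κ₀, h0, h1, hk⟩ := h D f M hDb hDo hconv hf2 hfL hM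
  refine ⟨κ₀, h0, h1, fun κ hκ hκ' => ?_⟩
  obtain ⟨u, hu, hu0⟩ := exists_isMin hκ hDb hDo.measurableSet
    (hfL.weaken (hLf.trans le_self_add) : LipschitzWith (L' + 1) f)
  exact ⟨u, hu, hk κ hκ hκ' _ le_self_add u hu hu0, hu0⟩

end Vale.Agent.P080C1.Exist
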