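import Vale.Agent.P080C1.Exist.Exists

/-!
Divergence formula against Lipschitz test functions, and smooth supersolutions.
-/

noncomputable section

open MeasureTheory Filter Topology Metric Set
open scoped NNReal RealInnerProductSpace Gradient ContDiff

namespace Vale.Agent.P080C1.Exist

set_option linter.unusedSectionVars false

variable {E : Type*} [NormedAddCommGroup E] [InnerProductSpace ℝ E] [FiniteDimensional ℝ E]

/-- The trace of a continuous linear map, in the standard orthonormal basis. -/
def trace (M : E →L[ℝ] E) : ℝ :=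
  ∑ i, ⟪stdOrthonormalBasis ℝ E i, M (stdOrthonormalBasis ℝ E i)⟫

theorem trace_add (M N : E →L[ℝ] E) : trace (M + N) = trace M + trace N := by
  simp [trace, inner_add_right, Finset.sum_add_distrib]

theorem trace_smul (a : ℝ) (M : E →L[ℝ] E) : trace (a • M) = a * trace M := by
  simp [trace, real_inner_smul_right, Finset.mul_sum]

theorem trace_id : trace (ContinuousLinearMap.id ℝ E) = Module.finrank ℝ E := by
  simp [trace]

theorem trace_smulRight (l : E →L[ℝ] ℝ) (e : E) : trace (l.smulRight e) = l e := by
  simp only [trace, ContinuousLinearMap.smulRight_apply, real_inner_smul_right]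
  conv_rhs => rw [← (stdOrthonormalBasis ℝ E).sum_repr' e]
  simp [map_sum, mul_comm]

theorem abs_trace_le (M : E →L[ℝ] E) : |trace M| ≤ Module.finrank ℝ E * ‖M‖ := by
  refine (Finset.abs_sum_le_sum_abs _ _).trans ?_
  have : ∀ i, |⟪stdOrthonormalBasis ℝ E i, M (stdOrthonormalBasis ℝ E i)⟫| ≤ ‖M‖ := fun i => by
    refine (abs_real_inner_le_norm _ _).trans ?_
    simpa using M.le_opNorm (stdOrthonormalBasis ℝ E i)
  refine (Finset.sum_le_card_nsmul _ _ ‖M‖ fun i _ => this i).trans ?_
  simp

variable [MeasurableSpace E] [BorelSpace E] {K : ℝ≥0} {U : Set E} {φ : E → ℝ}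

theorem ae_gradient_eq_zero_off (hφ : LipschitzWith K φ) (h0 : ∀ x ∉ U, φ x = 0) :
    ∀ᵐ x : E, x ∉ U → gradient φ x = 0 := by
  filter_upwards [hφ.ae_differentiableAt,
    (lipschitzWith_one_norm.comp hφ).ae_differentiableAt] with y a b hy
  have hmin : IsLocalMin (fun y => ‖φ y‖) y :=
    Eventually.of_forall fun z => by simp [h0 y hy]
  have hb : HasFDerivAt (fun y => ‖φ y‖) (0 : E →L[ℝ] ℝ) y := by
    have := hmin.fderiv_eq_zero; rw [← this]; exact b.hasFDerivAt
  have hd : HasFDerivAt φ (0 : E →L[ℝ] ℝ) y := by
    rw [hasFDerivAt_iff_isLittleO_nhds_zero] at hb ⊢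
    simp only [h0 y hy, norm_zero, zero_apply, sub_zero] at hb ⊢
    exact hb.of_norm_left
  simp [gradient, hd.fderiv]

/-- Divergence theorem against a Lipschitz function vanishing off a bounded open set. -/
theorem integral_inner_gradient_eq (hU : Bornology.IsBounded U) (hUo : IsOpen U)
    (hφ : LipschitzWith K φ) (h0 : ∀ x ∉ U, φ x = 0) {G : E → E} (hG : ContDiff ℝ 1 G) :
    ∫ x in U, ⟪G x, gradient φ x⟫ = -∫ x in U, trace (fderiv ℝ G x) * φ x := by
  obtain ⟨R, hR⟩ := hU.closure.subset_closedBall (0 : E)
  let χ : ContDiffBump (0 : E) :=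
    ⟨max R 0 + 1, max R 0 + 2, by positivity, by linarith⟩
  have hχ1 : ∀ x ∈ closedBall (0 : E) (max R 0 + 1), χ x = 1 := fun x hx => χ.one_of_mem_closedBall hx
  set b := stdOrthonormalBasis ℝ E
  have hsub : closure U ⊆ ball (0 : E) (max R 0 + 1) :=
    hR.trans (closedBall_subset_ball (by linarith [le_max_left R 0]))
  have hterm : ∀ i, ∫ x, lineDeriv ℝ φ x (b i) * (χ x * ⟪b i, G x⟫) =
      -∫ x in U, ⟪b i, fderiv ℝ G x (b i)⟫ * φ x := by
    intro i
    have hg1 : ContDiff ℝ 1 fun x => χ x * ⟪b i, G x⟫ :=
      χ.contDiff.mul (contDiff_const.inner ℝ hG)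
    have hgc : HasCompactSupport fun x => χ x * ⟪b i, G x⟫ := χ.hasCompactSupport.mul_right
    obtain ⟨D, hD⟩ := ContDiff.lipschitzWith_of_hasCompactSupport hgc hg1 one_ne_zero
    rw [hφ.integral_lineDeriv_mul_eq (μ := volume) hD hgc, ← integral_neg,
      ← integral_indicator hUo.measurableSet]
    refine integral_congr_ae (Eventually.of_forall fun x => ?_)
    by_cases hx : x ∈ U
    · have hd : HasFDerivAt (fun y => χ y * ⟪b i, G y⟫)
          ((innerSL ℝ (b i)).comp (fderiv ℝ G x)) x := by
        have hnb : (fun y => χ y * ⟪b i, G y⟫) =ᶠ[𝓝 x] fun y => ⟪b i, G y⟫ := by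
          filter_upwards [isOpen_ball.mem_nhds (hsub (subset_closure hx))] with y hy
          rw [hχ1 y (ball_subset_closedBall hy), one_mul]
        exact ((innerSL ℝ (b i)).hasFDerivAt.comp x
          (hG.differentiable one_ne_zero x).hasFDerivAt).congr_of_eventuallyEq hnb
      have hl := (hd.hasLineDerivAt (-b i)).lineDeriv
      rw [indicator_of_mem hx]; beta_reduce; rw [hl]
      simp [inner_neg_right]
    · simp [indicator_of_notMem hx, h0 x hx]
  have hint : ∀ i, Integrable fun x => lineDeriv ℝ φ x (b i) * (χ x * ⟪b i, G x⟫) := fun i =>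
    integrable_lineDeriv_mul hφ (b i)
      ((χ.continuous.mul (continuous_const.inner hG.continuous)).integrable_of_hasCompactSupport
        χ.hasCompactSupport.mul_right)
  have hint2 : ∀ i, IntegrableOn (fun x => ⟪b i, fderiv ℝ G x (b i)⟫ * φ x) U := fun i =>
    (((continuous_const.inner ((hG.continuous_fderiv one_ne_zero).clm_apply continuous_const)).mul
      hφ.continuous).continuousOn.integrableOn_compact hU.isCompact_closure).mono_set subset_closure
  calc ∫ x in U, ⟪G x, gradient φ x⟫
      = ∫ x, ∑ i, lineDeriv ℝ φ x (b i) * (χ x * ⟪b i, G x⟫) := by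
        rw [← integral_indicator hUo.measurableSet]
        refine integral_congr_ae ?_
        filter_upwards [hφ.ae_differentiableAt, ae_gradient_eq_zero_off hφ h0] with x hd hz
        by_cases hx : x ∈ U
        · rw [indicator_of_mem hx, ← b.sum_inner_mul_inner (G x) (gradient φ x)]
          refine Finset.sum_congr rfl fun i _ => ?_
          rw [hχ1 x (ball_subset_closedBall (hsub (subset_closure hx))), one_mul,
            hd.lineDeriv_eq_fderiv, real_inner_comm (G x) (b i), mul_comm]
          congr 1
          rw [real_inner_comm, inner_gradient_left]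
        · rw [indicator_of_notMem hx]
          have h := hz hx
          refine (Finset.sum_eq_zero fun i _ => ?_).symm
          rw [hd.lineDeriv_eq_fderiv, ← inner_gradient_left, h, inner_zero_left, zero_mul]
    _ = -∫ x in U, trace (fderiv ℝ G x) * φ x := by
        rw [integral_finsetSum _ fun i _ => hint i]
        simp only [hterm, Finset.sum_neg_distrib]
        rw [← integral_finsetSum _ fun i _ => hint2 i]
        congr 1
        refine integral_congr_ae (Eventually.of_forall fun x => ?_)
        simp [trace, Finset.sum_mul, b]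

end Vale.Agent.P080C1.Exist
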