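import Vale.Agent.P080C1.Exist.EL
import Vale.Agent.P080C1.Exist.Div

/-!
Difference quotients of the gradient of an unconstrained minimiser are bounded in `L²_loc`.
-/

noncomputable section

open MeasureTheory Filter Topology Metric Set
open scoped NNReal RealInnerProductSpace Gradient

namespace Vale.Agent.P080C1.Exist

set_option linter.unusedSectionVars false

variable {E : Type*} [NormedAddCommGroup E] [InnerProductSpace ℝ E] [FiniteDimensional ℝ E]

theorem abs_exp_sub_exp_le {s t : ℝ} (hs : s ≤ 0) (ht : t ≤ 0) :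
    |Real.exp s - Real.exp t| ≤ |s - t| := by
  have key : ∀ a b : ℝ, a ≤ b → b ≤ 0 → |Real.exp a - Real.exp b| ≤ |a - b| := by
    intro a b hab hb
    rw [abs_sub_comm, abs_of_nonneg (sub_nonneg.2 (Real.exp_le_exp.2 hab)), abs_sub_comm,
      abs_of_nonneg (sub_nonneg.2 hab)]
    have h1 : Real.exp b - Real.exp a = Real.exp b * (1 - Real.exp (a - b)) := by
      rw [mul_sub, mul_one, ← Real.exp_add]; ring_nf
    rw [h1]
    have h2 := Real.add_one_le_exp (a - b)
    calc Real.exp b * (1 - Real.exp (a - b)) ≤ 1 * (b - a) :=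
          mul_le_mul (Real.exp_le_one_iff.2 hb) (by linarith)
            (sub_nonneg.2 (Real.exp_le_one_iff.2 (by linarith))) zero_le_one
      _ = b - a := one_mul _
  rcases le_total s t with h | h
  · exact key s t h ht
  · rw [abs_sub_comm, abs_sub_comm s]; exact key t s h hs

theorem dens_lower {κ L : ℝ} (hκ : 0 < κ) (p : E) :
    Real.exp (-(L ^ 2) / (2 * κ)) ≤ dens κ L p :=
  Real.exp_le_exp.2 (div_le_div_of_nonneg_right (by nlinarith [norm_nonneg p]) (by positivity))

theorem flux_mono {κ L : ℝ} (hκ : 0 < κ) (a b : E) :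
    Real.exp (-(L ^ 2) / (2 * κ)) * ‖a - b‖ ^ 2 ≤
      ⟪dens κ L a • a - dens κ L b • b, a - b⟫ := by
  have hid : ⟪dens κ L a • a - dens κ L b • b, a - b⟫ =
      (dens κ L a + dens κ L b) / 2 * ‖a - b‖ ^ 2 +
      (dens κ L a - dens κ L b) * (‖a‖ ^ 2 - ‖b‖ ^ 2) / 2 := by
    rw [norm_sub_sq_real]
    simp only [inner_sub_left, inner_sub_right, real_inner_smul_left, real_inner_self_eq_norm_sq,
      real_inner_comm a b]
    ring
  have hmon : 0 ≤ (dens κ L a - dens κ L b) * (‖a‖ ^ 2 - ‖b‖ ^ 2) := by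
    rcases le_total (‖b‖ ^ 2) (‖a‖ ^ 2) with h | h
    · exact mul_nonneg (sub_nonneg.2 (Real.exp_le_exp.2
        (div_le_div_of_nonneg_right (by linarith) (by positivity)))) (sub_nonneg.2 h)
    · exact mul_nonneg_of_nonpos_of_nonpos (sub_nonpos.2 (Real.exp_le_exp.2
        (div_le_div_of_nonneg_right (by linarith) (by positivity)))) (sub_nonpos.2 h)
  rw [hid]
  have h1 : Real.exp (-(L ^ 2) / (2 * κ)) * ‖a - b‖ ^ 2 ≤
      (dens κ L a + dens κ L b) / 2 * ‖a - b‖ ^ 2 :=
    mul_le_mul_of_nonneg_right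
      (by linarith [dens_lower (L := L) hκ a, dens_lower (L := L) hκ b]) (sq_nonneg _)
  linarith

theorem abs_dens_sub_le {κ L : ℝ} (hκ : 0 < κ) {a b : E} (ha : ‖a‖ ≤ L) (hb : ‖b‖ ≤ L) :
    |dens κ L a - dens κ L b| ≤ L / κ * ‖a - b‖ := by
  have hL : 0 ≤ L := (norm_nonneg a).trans ha
  refine (abs_exp_sub_exp_le (div_nonpos_of_nonpos_of_nonneg (by nlinarith [norm_nonneg a])
    (by positivity)) (div_nonpos_of_nonpos_of_nonneg (by nlinarith [norm_nonneg b])
    (by positivity))).trans ?_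
  rw [← sub_div, abs_div, abs_of_pos (show 0 < 2 * κ by positivity), div_le_iff₀ (by positivity)]
  have h1 : ‖a‖ ^ 2 - L ^ 2 - (‖b‖ ^ 2 - L ^ 2) = (‖a‖ + ‖b‖) * (‖a‖ - ‖b‖) := by ring
  rw [h1, abs_mul, abs_of_nonneg (add_nonneg (norm_nonneg _) (norm_nonneg _))]
  calc (‖a‖ + ‖b‖) * |‖a‖ - ‖b‖| ≤ (L + L) * ‖a - b‖ :=
        mul_le_mul (add_le_add ha hb) (abs_norm_sub_norm_le a b) (abs_nonneg _) (by positivity)
    _ = L / κ * ‖a - b‖ * (2 * κ) := by field_simp; ring

theorem flux_lip {κ L : ℝ} (hκ : 0 < κ) {a b : E} (ha : ‖a‖ ≤ L) (hb : ‖b‖ ≤ L) :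
    ‖dens κ L a • a - dens κ L b • b‖ ≤ (1 + L ^ 2 / κ) * ‖a - b‖ := by
  have hL : 0 ≤ L := (norm_nonneg a).trans ha
  rw [show dens κ L a • a - dens κ L b • b =
    dens κ L a • (a - b) + (dens κ L a - dens κ L b) • b by rw [smul_sub, sub_smul]; abel]
  refine (norm_add_le _ _).trans ?_
  rw [norm_smul, norm_smul, Real.norm_eq_abs, Real.norm_eq_abs, abs_of_pos (dens_pos _ _ _)]
  have h1 : dens κ L a * ‖a - b‖ ≤ 1 * ‖a - b‖ :=
    mul_le_mul_of_nonneg_right (dens_le_one hκ ha) (norm_nonneg _)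
  have h2 : |dens κ L a - dens κ L b| * ‖b‖ ≤ L / κ * ‖a - b‖ * L :=
    mul_le_mul (abs_dens_sub_le hκ ha hb) hb (norm_nonneg _) (by positivity)
  calc _ ≤ 1 * ‖a - b‖ + L / κ * ‖a - b‖ * L := add_le_add h1 h2
    _ = _ := by field_simp

variable [MeasurableSpace E] [BorelSpace E]

theorem integrable_inner_gradient {G : E → E} (hG : Measurable G) {C : ℝ} (hC : ∀ x, ‖G x‖ ≤ C)
    {M : ℝ≥0} {φ : E → ℝ} (hφ : LipschitzWith M φ) {S : Set E} (hS : Bornology.IsBounded S)
    (h0 : ∀ x ∉ S, φ x = 0) : Integrable fun x => ⟪G x, gradient φ x⟫ := by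
  have hC0 : 0 ≤ C := (norm_nonneg _).trans (hC 0)
  refine Integrable.mono' (g := (closure S).indicator fun _ => C * M)
    ((integrable_indicator_iff isClosed_closure.measurableSet).2
      (integrableOn_const hS.closure.measure_lt_top.ne))
    (hG.inner (measurable_gradient φ)).aestronglyMeasurable (Eventually.of_forall fun x => ?_)
  by_cases hx : x ∈ closure S
  · rw [indicator_of_mem hx]
    exact (norm_inner_le_norm _ _).trans
      (mul_le_mul (hC x) (norm_gradient_le hφ x) (norm_nonneg _) hC0)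
  · rw [indicator_of_notMem hx, gradient_eq_zero_off h0 hx]
    simp

/-- The Euler-Lagrange equation as an integral over the whole space. -/
theorem IsMin.euler_lagrange' {κ : ℝ} {L L' M : ℝ≥0} {U : Set E} {u φ : E → ℝ} (hκ : 0 < κ)
    (hU : Bornology.IsBounded U) (hu : IsMin κ L U u)
    (hu' : LipschitzWith L' u) (hL : L' < L) (hφ : LipschitzWith M φ) (h0 : ∀ x ∉ U, φ x = 0) :
    ∫ x, ⟪dens κ L (gradient u x) • gradient u x, gradient φ x⟫ = 0 := by
  rw [← setIntegral_eq_integral_of_ae_compl_eq_zero (s := U) ?_]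
  · simp only [real_inner_smul_left]
    exact hu.euler_lagrange hκ hU hu' hL hφ h0
  · filter_upwards [ae_gradient_eq_zero_off hφ h0] with x hx hxU
    simp [hx hxU]

variable {κ : ℝ} {L L' : ℝ≥0} {U : Set E} {u : E → ℝ}

/-- Difference quotient bound. -/
theorem diffQuot_bound (hκ : 0 < κ) (hUb : Bornology.IsBounded U) (hUo : IsOpen U)
    (hu : IsMin κ L U u) (hu' : LipschitzWith L' u) (hL : L' < L) {K : Set E} (hK : IsCompact K)
    (hKU : K ⊆ U) :
    ∃ δ > 0, ∃ C : ℝ, ∀ h : E, ‖h‖ ≤ δ →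
      ∫ x in K, ‖gradient u (x + h) - gradient u x‖ ^ 2 ≤ C * ‖h‖ ^ 2 := by
  rcases K.eq_empty_or_nonempty with rfl | hne
  · exact ⟨1, one_pos, 0, fun h _ => by simp⟩
  obtain ⟨δ₀, hδ₀, hsub⟩ := hK.exists_cthickening_subset_open hUo hKU
  set δ := δ₀ / 4 with hδ
  have hδp : 0 < δ := by positivity
  have hmem : ∀ x, infDist x K < 4 * δ → x ∈ U := fun x hx => hsub (thickening_subset_cthickening _ _
    ((mem_thickening_iff_infDist_lt hne).2 (by rw [hδ] at hx; linarith)))
  set η : E → ℝ := fun x => max 0 (1 - infDist x K / δ) with hη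
  have hη0 : ∀ x, 0 ≤ η x := fun x => le_max_left _ _
  have hη1 : ∀ x, η x ≤ 1 := fun x => max_le zero_le_one
    (sub_le_self _ (div_nonneg infDist_nonneg hδp.le))
  have hηlip : LipschitzWith (1 / δ).toNNReal η := LipschitzWith.of_dist_le_mul fun x y => by
    rw [Real.dist_eq, Real.coe_toNNReal _ (by positivity)]
    refine (abs_max_sub_max_le_max _ _ _ _).trans (max_le (by simpa using by positivity) ?_)
    rw [show (1 - infDist x K / δ) - (1 - infDist y K / δ) = (infDist y K - infDist x K) / δ by ring,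
      abs_div, abs_of_pos hδp, div_eq_inv_mul, one_div, dist_comm]
    have := (lipschitz_infDist_pt K).dist_le_mul y x
    rw [Real.dist_eq, NNReal.coe_one, one_mul] at this
    exact mul_le_mul_of_nonneg_left this (by positivity)
  have hηoff : ∀ x, δ ≤ infDist x K → η x = 0 := fun x hx =>
    max_eq_left (by rw [sub_nonpos, le_div_iff₀ hδp]; linarith)
  have hηK : ∀ x ∈ K, η x = 1 := fun x hx => by simp [hη, infDist_zero_of_mem hx]
  set S := cthickening δ K with hS
  have hSb : Bornology.IsBounded S := hK.isBounded.cthickening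
  have hηS : ∀ x ∉ S, η x = 0 := fun x hx => hηoff x (by
    by_contra hc
    exact hx (thickening_subset_cthickening _ _ ((mem_thickening_iff_infDist_lt hne).2 (not_le.1 hc))))
  set c := Real.exp (-((L : ℝ) ^ 2) / (2 * κ)) with hc
  have hc0 : 0 < c := Real.exp_pos _
  set Cb := 1 + (L : ℝ) ^ 2 / κ with hCb
  have hCb0 : 0 < Cb := by positivity
  set D := (2 * L' * (1 / δ) * Cb) ^ 2 / (2 * c) with hD
  refine ⟨δ, hδp, 2 / c * (D * volume.real S), fun h hh => ?_⟩
  set g := gradient u with hg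
  have hgL : ∀ x, ‖g x‖ ≤ (L : ℝ) := fun x => (norm_gradient_le hu' x).trans (by exact_mod_cast hL.le)
  set d : E → ℝ := fun x => u (x + h) - u x with hd
  have hdb : ∀ x, |d x| ≤ L' * ‖h‖ := fun x => by
    have := hu'.norm_sub_le (x + h) x
    rwa [add_sub_cancel_left] at this
  have hdl : ∀ x y, |d x - d y| ≤ 2 * L' * dist x y := fun x y => by
    have h1 := hu'.dist_le_mul (x + h) (y + h)
    have h2 := hu'.dist_le_mul x y
    rw [Real.dist_eq, dist_add_right] at h1
    rw [Real.dist_eq] at h2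
    simp only [hd]
    rw [show u (x + h) - u x - (u (y + h) - u y) = (u (x + h) - u (y + h)) - (u x - u y) by ring]
    linarith [abs_sub (u (x + h) - u (y + h)) (u x - u y)]
  set φ : E → ℝ := fun x => η x ^ 2 * d x with hφ
  set M : ℝ := 2 * (1 / δ) * (L' * ‖h‖) + 2 * L' with hM
  have hM0 : 0 ≤ M := by positivity
  have hφL : LipschitzWith M.toNNReal φ := LipschitzWith.of_dist_le_mul fun x y => by
    rw [Real.dist_eq, Real.coe_toNNReal _ hM0]
    have e : φ x - φ y = (η x + η y) * (η x - η y) * d x + η y ^ 2 * (d x - d y) := by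
      simp only [hφ]; ring
    rw [e]
    refine (abs_add_le _ _).trans ?_
    rw [abs_mul, abs_mul, abs_mul, abs_of_nonneg (add_nonneg (hη0 x) (hη0 y)),
      abs_of_nonneg (sq_nonneg (η y))]
    have h1 : |η x - η y| ≤ 1 / δ * dist x y := by
      have := hηlip.dist_le_mul x y
      rwa [Real.dist_eq, Real.coe_toNNReal _ (by positivity)] at this
    have h2 : (η x + η y) * |η x - η y| * |d x| ≤ 2 * (1 / δ * dist x y) * (L' * ‖h‖) :=
      mul_le_mul (mul_le_mul (by linarith [hη1 x, hη1 y]) h1 (abs_nonneg _) (by norm_num)) (hdb x)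
        (abs_nonneg _) (by positivity)
    have h3 : η y ^ 2 * |d x - d y| ≤ 1 * (2 * L' * dist x y) :=
      mul_le_mul (pow_le_one₀ (hη0 y) (hη1 y)) (hdl x y) (abs_nonneg _) zero_le_one
    rw [hM]
    linarith
  have hφS : ∀ x ∉ S, φ x = 0 := fun x hx => by simp [hφ, hηS x hx]
  have hφU : ∀ x ∉ U, φ x = 0 := fun x hx => by
    have : δ ≤ infDist x K := by by_contra hc; exact hx (hmem x (by linarith [not_le.1 hc]))
    simp [hφ, hηoff x this]
  have hψU : ∀ x ∉ U, φ (x - h) = 0 := fun x hx => by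
    have : δ ≤ infDist (x - h) K := by
      by_contra hc
      have h1 := infDist_le_infDist_add_dist (s := K) (x := x) (y := x - h)
      rw [dist_eq_norm, sub_sub_cancel] at h1
      exact hx (hmem x (by linarith [not_le.1 hc]))
    simp [hφ, hηoff _ this]
  have hψL : LipschitzWith M.toNNReal fun x => φ (x - h) :=
    LipschitzWith.of_dist_le_mul fun x y => by simpa using hφL.dist_le_mul (x - h) (y - h)
  have hBm : Measurable fun x => dens κ L (g x) • g x :=
    ((continuous_dens κ L).measurable.comp (measurable_gradient u)).smul (measurable_gradient u)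
  have hBb : ∀ x, ‖dens κ L (g x) • g x‖ ≤ L := fun x => by
    rw [norm_smul, Real.norm_eq_abs, abs_of_pos (dens_pos _ _ _)]
    calc dens κ L (g x) * ‖g x‖ ≤ 1 * (L : ℝ) :=
          mul_le_mul (dens_le_one hκ (hgL x)) (hgL x) (norm_nonneg _) zero_le_one
      _ = L := one_mul _
  have e1 := hu.euler_lagrange' hκ hUb hu' hL hφL hφU
  have e2 := hu.euler_lagrange' hκ hUb hu' hL hψL hψU
  rw [← integral_add_right_eq_self _ h] at e2
  have hgs : ∀ x, gradient (fun y => φ (y - h)) (x + h) = gradient φ x := fun x => by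
    simp [gradient, fderiv_comp_sub]
  simp only [hgs] at e2
  have i1 := integrable_inner_gradient hBm hBb hφL hSb hφS
  have i2 := integrable_inner_gradient (G := fun x => dens κ L (g (x + h)) • g (x + h))
    (hBm.comp (measurable_add_const h)) (fun x => hBb _) hφL hSb hφS
  have e3 : ∫ x, ⟪dens κ L (g (x + h)) • g (x + h) - dens κ L (g x) • g x, gradient φ x⟫ = 0 := by
    simp only [inner_sub_left]
    rw [integral_sub i2 i1, e1, e2, sub_zero]
  have hpt : ∀ᵐ x, c / 2 * K.indicator (fun y => ‖g (y + h) - g y‖ ^ 2) x ≤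
      ⟪dens κ L (g (x + h)) • g (x + h) - dens κ L (g x) • g x, gradient φ x⟫ +
        S.indicator (fun _ => D * ‖h‖ ^ 2) x := by
    filter_upwards [hηlip.ae_differentiableAt, hu'.ae_differentiableAt,
      (measurePreserving_add_right (volume : Measure E) h).quasiMeasurePreserving.ae
        hu'.ae_differentiableAt] with x hx1 hx2 hx3
    have hdd : HasFDerivAt d (fderiv ℝ u (x + h) - fderiv ℝ u x) x :=
      HasFDerivAt.fun_sub (hx3.hasFDerivAt.comp x ((hasFDerivAt_id (𝕜 := ℝ) x).add_const h))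
        hx2.hasFDerivAt
    have hdφ := (hx1.hasFDerivAt.pow 2).fun_mul hdd
    have hgφ : gradient φ x =
        (η x ^ 2) • (g (x + h) - g x) + (2 * η x * d x) • gradient η x := by
      refine ext_inner_right ℝ fun v => ?_
      rw [inner_gradient_left, hφ, hdφ.fderiv]
      simp [inner_add_left, inner_sub_left, real_inner_smul_left, hg, inner_gradient_left]
      ring
    set Δ := g (x + h) - g x with hΔ
    set B := dens κ L (g (x + h)) • g (x + h) - dens κ L (g x) • g x with hB
    have hmono : c * ‖Δ‖ ^ 2 ≤ ⟪B, Δ⟫ := flux_mono hκ _ _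
    have hlip : ‖B‖ ≤ Cb * ‖Δ‖ := flux_lip hκ (hgL _) (hgL _)
    have hcross : |2 * η x * d x * ⟪B, gradient η x⟫| ≤
        η x * ‖Δ‖ * (2 * L' * (1 / δ) * Cb * ‖h‖) := by
      rw [abs_mul, abs_mul, abs_mul, abs_two, abs_of_nonneg (hη0 x)]
      have h1 : |⟪B, gradient η x⟫| ≤ Cb * ‖Δ‖ * (1 / δ) := by
        refine (abs_real_inner_le_norm _ _).trans (mul_le_mul hlip ?_ (norm_nonneg _) (by positivity))
        exact (norm_gradient_le hηlip x).trans_eq (Real.coe_toNNReal _ (by positivity))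
      calc 2 * η x * |d x| * |⟪B, gradient η x⟫| ≤ 2 * η x * (L' * ‖h‖) * (Cb * ‖Δ‖ * (1 / δ)) :=
            mul_le_mul (mul_le_mul_of_nonneg_left (hdb x) (by have := hη0 x; positivity)) h1
              (abs_nonneg _) (by have := hη0 x; positivity)
        _ = _ := by ring
    have hexp : ⟪B, gradient φ x⟫ = η x ^ 2 * ⟪B, Δ⟫ + 2 * η x * d x * ⟪B, gradient η x⟫ := by
      rw [hgφ, inner_add_right, real_inner_smul_right, real_inner_smul_right]
    have h2 := mul_le_mul_of_nonneg_left hmono (sq_nonneg (η x))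
    by_cases hxS : x ∈ S
    · rw [indicator_of_mem hxS]
      have ham : η x * ‖Δ‖ * (2 * L' * (1 / δ) * Cb * ‖h‖) ≤
          c / 2 * (η x * ‖Δ‖) ^ 2 + D * ‖h‖ ^ 2 := by
        have e : c / 2 * (η x * ‖Δ‖) ^ 2 + D * ‖h‖ ^ 2 -
            η x * ‖Δ‖ * (2 * L' * (1 / δ) * Cb * ‖h‖) =
            (c * (η x * ‖Δ‖) - 2 * L' * (1 / δ) * Cb * ‖h‖) ^ 2 / (2 * c) := by
          rw [hD]; field_simp; ring
        have : 0 ≤ (c * (η x * ‖Δ‖) - 2 * L' * (1 / δ) * Cb * ‖h‖) ^ 2 / (2 * c) := by positivity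
        linarith
      have h3 := neg_abs_le (2 * η x * d x * ⟪B, gradient η x⟫)
      by_cases hxK : x ∈ K
      · rw [indicator_of_mem hxK]
        show c / 2 * ‖Δ‖ ^ 2 ≤ _
        rw [hηK x hxK] at h2 ham h3 hexp hcross
        simp only [one_pow, one_mul, mul_one] at h2 ham h3 hexp hcross
        linarith
      · rw [indicator_of_notMem hxK, mul_zero]
        have : 0 ≤ c / 2 * (η x * ‖Δ‖) ^ 2 := by positivity
        linarith
    · have hxK : x ∉ K := fun hh => hxS (self_subset_cthickening _ hh)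
      rw [indicator_of_notMem hxS, indicator_of_notMem hxK, hexp, hηS x hxS]
      simp
  have hKi : IntegrableOn (fun y => ‖g (y + h) - g y‖ ^ 2) K := by
    refine IntegrableOn.of_bound hK.measure_lt_top
      ((((measurable_gradient u).comp (measurable_add_const h)).sub
        (measurable_gradient u)).norm.pow_const 2).aestronglyMeasurable (((L : ℝ) + L) ^ 2)
      (Eventually.of_forall fun y => ?_)
    rw [Real.norm_eq_abs, abs_of_nonneg (sq_nonneg _)]
    exact pow_le_pow_left₀ (norm_nonneg _) ((norm_sub_le _ _).trans (add_le_add (hgL _) (hgL _))) 2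
  have hSi : Integrable (S.indicator fun _ => D * ‖h‖ ^ 2) :=
    (integrable_indicator_iff isClosed_cthickening.measurableSet).2
      (integrableOn_const hSb.measure_lt_top.ne)
  have hii : Integrable fun x =>
      ⟪dens κ L (g (x + h)) • g (x + h) - dens κ L (g x) • g x, gradient φ x⟫ := by
    simp only [inner_sub_left]; exact i2.sub i1
  have key := integral_mono_ae (((integrable_indicator_iff hK.measurableSet).2 hKi).const_mul (c / 2))
    (hii.add hSi) hpt
  simp only [Pi.add_apply] at key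
  rw [integral_const_mul, integral_indicator hK.measurableSet, integral_add hii hSi, e3, zero_add,
    integral_indicator isClosed_cthickening.measurableSet, setIntegral_const, smul_eq_mul] at key
  calc ∫ x in K, ‖g (x + h) - g x‖ ^ 2 ≤ 2 / c * (volume.real S * (D * ‖h‖ ^ 2)) := by
        rw [div_mul_eq_mul_div, le_div_iff₀ hc0]
        linarith
    _ = 2 / c * (D * volume.real S) * ‖h‖ ^ 2 := by ring

end Vale.Agent.P080C1.Exist
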