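import Vale.Agent.P080C1.Props

/-!
The geometric part of the construction of models: monotone data and a capped cylinder around a
flat solution.
-/

noncomputable section

open Metric

namespace Vale.Agent.P080C1

/-- The part of the vertical cylinder of radius `a` between two levels of `g`. -/
def capDom (g : E3 → ℝ) (a c₁ c₂ : ℝ) : Set E3 :=
  {x | x 0 ^ 2 + x 1 ^ 2 < a ^ 2 ∧ c₁ < g x ∧ g x < c₂}

/-- Monotone data close to a flat solution, on a capped cylinder with exterior balls. -/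
def ModelDomainProp : Prop :=
  ∃ L₀ : ℝ, 0 < L₀ ∧ ∀ L : ℝ, L₀ ≤ L → ∃ C ε₀ : ℝ, 0 < C ∧ 0 < ε₀ ∧
    ∀ (O : Set E3) (u : E3 → ℝ) (ε : ℝ),
      IsOpen O → IsInfHarmonicOn O u → 0 < ε → ε ≤ ε₀ → cyl₀ 1 (L * √ε) ⊆ O →
      FlatOn u (cyl₀ 1 (L * √ε)) (ee 2) ε →
      ∃ (g : E3 → ℝ) (a c₁ c₂ σ r₀ Lg M : ℝ),
        ContDiff ℝ 2 g ∧ 0 < σ ∧ 0 < a ∧ c₁ < c₂ ∧ 0 < r₀ ∧
        (∀ x, σ ≤ fderiv ℝ g x (ee 2)) ∧
        (∀ x, ‖fderiv ℝ g x‖ ≤ Lg) ∧ (∀ x, ‖fderiv ℝ (gradient g) x‖ ≤ M) ∧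
        Bornology.IsBounded (capDom g a c₁ c₂) ∧
        (∀ y ∈ frontier (capDom g a c₁ c₂),
          ∃ c : E3, ‖y - c‖ = r₀ ∧ ∀ x ∈ capDom g a c₁ c₂, r₀ ≤ ‖x - c‖) ∧
        cyl₀ (1 / 2) (1 / 2 * (L * √ε)) ⊆ capDom g a c₁ c₂ ∧
        closure (capDom g a c₁ c₂) ⊆ cyl₀ (5 / 8) (5 / 8 * (L * √ε)) ∧
        ∀ x ∈ closure (capDom g a c₁ c₂), |g x - u x| ≤ C * ε ^ 2

end Vale.Agent.P080C1
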