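import Vale.Agent.P080C1.Exist.Min

/-!
Weak-star convergence of gradients, lower semicontinuity, existence of minimisers.
-/

noncomputable section

open MeasureTheory Filter Topology Metric Set
open scoped NNReal RealInnerProductSpace Gradient ContDiff ENNReal

namespace Vale.Agent.P080C1.Exist

set_option linter.unusedSectionVars false

variable {E : Type*} [NormedAddCommGroup E] [InnerProductSpace ℝ E] [FiniteDimensional ℝ E]
  [MeasurableSpace E] [BorelSpace E]

variable {L : ℝ≥0}

theorem integrable_lineDeriv_mul {w : E → ℝ} (hw : LipschitzWith L w) (v : E) {h : E → ℝ}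
    (hh : Integrable h) : Integrable (fun x => lineDeriv ℝ w x v * h x) := by
  refine hh.bdd_mul (aestronglyMeasurable_lineDeriv hw.continuous volume) (c := L * ‖v‖) ?_
  exact Eventually.of_forall fun x => norm_lineDeriv_le_of_lipschitz ℝ hw

/-- Gradients of uniformly Lipschitz pointwise convergent functions converge weakly star. -/
theorem tendsto_integral_lineDeriv_mul {w : ℕ → E → ℝ} {u : E → ℝ}
    (hw : ∀ n, LipschitzWith L (w n)) (hu : LipschitzWith L u)
    (hlim : ∀ x, Tendsto (fun n => w n x) atTop (𝓝 (u x))) (v : E) {h : E → ℝ}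
    (hh : Integrable h) :
    Tendsto (fun n => ∫ x, lineDeriv ℝ (w n) x v * h x) atTop
      (𝓝 (∫ x, lineDeriv ℝ u x v * h x)) := by
  have smooth : ∀ φ : E → ℝ, HasCompactSupport φ → ContDiff ℝ ∞ φ →
      Tendsto (fun n => ∫ x, lineDeriv ℝ (w n) x v * φ x) atTop
        (𝓝 (∫ x, lineDeriv ℝ u x v * φ x)) := by
    intro φ hφc hφs
    obtain ⟨D, hD⟩ := ContDiff.lipschitzWith_of_hasCompactSupport hφc hφs (by simp)
    simp_rw [fun n => (hw n).integral_lineDeriv_mul_eq (μ := volume) hD hφc v,
      hu.integral_lineDeriv_mul_eq (μ := volume) hD hφc v]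
    obtain ⟨B, hB⟩ : ∃ B : ℝ, ∀ n, |w n 0| ≤ B :=
      ⟨_, fun n => le_ciSup ((hlim 0).abs.bddAbove_range) n⟩
    obtain ⟨R, hR⟩ := hφc.isCompact.isBounded.subset_closedBall (0 : E)
    refine tendsto_integral_of_dominated_convergence
      ((closedBall (0 : E) R).indicator fun x => (D : ℝ) * ‖v‖ * (B + L * R)) ?_ ?_ ?_ ?_
    · exact fun n => ((aestronglyMeasurable_lineDeriv hD.continuous volume).mul
        (hw n).continuous.aestronglyMeasurable)
    · exact (integrable_indicator_iff measurableSet_closedBall).2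
        (integrableOn_const measure_closedBall_lt_top.ne)
    · refine fun n => Eventually.of_forall fun x => ?_
      by_cases hx : x ∈ closedBall (0 : E) R
      · rw [indicator_of_mem hx, norm_mul]
        have h1 : ‖lineDeriv ℝ φ x (-v)‖ ≤ D * ‖v‖ := by
          simpa using norm_lineDeriv_le_of_lipschitz ℝ hD (x₀ := x) (v := -v)
        have h2 : ‖w n x‖ ≤ B + L * R := by
          have h3 := (hw n).norm_sub_le x 0
          rw [sub_zero] at h3
          have h4 : (L : ℝ) * ‖x‖ ≤ L * R :=
            mul_le_mul_of_nonneg_left (by simpa using hx) L.coe_nonneg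
          have h5 := norm_le_norm_add_norm_sub' (w n x) (w n 0)
          have h6 : ‖w n 0‖ ≤ B := hB n
          linarith
        exact mul_le_mul h1 h2 (norm_nonneg _) (by positivity)
      · have hz : lineDeriv ℝ φ x (-v) = 0 := by
          rw [(hφs.differentiable (by simp)).differentiableAt.lineDeriv_eq_fderiv,
            fderiv_of_notMem_tsupport ℝ fun h => hx (hR h)]
          rfl
        rw [indicator_of_notMem hx, hz]
        simp
    · exact Eventually.of_forall fun x => (hlim x).const_mul _
  rw [Metric.tendsto_atTop]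
  intro ε hε
  set C := (L : ℝ) * ‖v‖ + 1 with hC
  have hC0 : 0 < C := by positivity
  obtain ⟨φ, hφc, hφs, hφ⟩ := (memLp_one_iff_integrable.2 hh).exist_eLpNorm_sub_le
    ENNReal.one_ne_top le_rfl (show 0 < ε / (4 * C) by positivity)
  have hφi : Integrable φ := hφs.continuous.integrable_of_hasCompactSupport hφc
  have hdiff : ∫ x, |h x - φ x| ≤ ε / (4 * C) := by
    have h1 : (eLpNorm (h - φ) 1 volume).toReal = ∫ x, |h x - φ x| := by
      have h0 : ∫ x, |h x - φ x| = (∫⁻ x, ‖h x - φ x‖ₑ).toReal :=
        integral_norm_eq_lintegral_enorm (hh.sub hφi).aestronglyMeasurable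
      rw [eLpNorm_one_eq_lintegral_enorm, h0]
      rfl
    rw [← h1]
    exact ENNReal.toReal_le_of_le_ofReal (by positivity) hφ
  have key : ∀ g : E → ℝ, LipschitzWith L g →
      |(∫ x, lineDeriv ℝ g x v * h x) - ∫ x, lineDeriv ℝ g x v * φ x| ≤ ε / 4 := by
    intro g hg
    rw [← integral_sub (integrable_lineDeriv_mul hg v hh) (integrable_lineDeriv_mul hg v hφi)]
    calc |∫ x, (lineDeriv ℝ g x v * h x - lineDeriv ℝ g x v * φ x)|
        ≤ ∫ x, |lineDeriv ℝ g x v * h x - lineDeriv ℝ g x v * φ x| := abs_integral_le_integral_abs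
      _ ≤ ∫ x, C * |h x - φ x| := by
          refine integral_mono_of_nonneg (Eventually.of_forall fun x => abs_nonneg _)
            ((hh.sub hφi).norm.const_mul C) (Eventually.of_forall fun x => ?_)
          simp only [← mul_sub, abs_mul]
          refine mul_le_mul_of_nonneg_right ?_ (abs_nonneg _)
          have := norm_lineDeriv_le_of_lipschitz ℝ hg (x₀ := x) (v := v)
          rw [Real.norm_eq_abs] at this
          linarith
      _ ≤ C * (ε / (4 * C)) := by
          rw [integral_const_mul]; exact mul_le_mul_of_nonneg_left hdiff hC0.le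
      _ = ε / 4 := by field_simp
  obtain ⟨N, hN⟩ := Metric.tendsto_atTop.1 (smooth φ hφc hφs) (ε / 4) (by positivity)
  refine ⟨N, fun n hn => ?_⟩
  have a := key _ (hw n)
  have b := key _ hu
  have c := hN n hn
  rw [Real.dist_eq] at c ⊢
  rw [abs_le] at a b
  rw [abs_lt] at c ⊢
  constructor <;> linarith

/-- Weak-star convergence tested on vector fields. -/
theorem tendsto_integral_inner_gradient {w : ℕ → E → ℝ} {u : E → ℝ}
    (hw : ∀ n, LipschitzWith L (w n)) (hu : LipschitzWith L u)
    (hlim : ∀ x, Tendsto (fun n => w n x) atTop (𝓝 (u x))) {G : E → E} (hG : Integrable G) :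
    Tendsto (fun n => ∫ x, ⟪G x, gradient (w n) x⟫) atTop (𝓝 (∫ x, ⟪G x, gradient u x⟫)) := by
  let b := stdOrthonormalBasis ℝ E
  have hGi : ∀ i, Integrable (fun x => ⟪b i, G x⟫) := fun i =>
    (innerSL ℝ (b i)).integrable_comp hG
  have key : ∀ g : E → ℝ, LipschitzWith L g → ∫ x, ⟪G x, gradient g x⟫ =
      ∑ i, ∫ x, lineDeriv ℝ g x (b i) * ⟪b i, G x⟫ := by
    intro g hg
    rw [← integral_finsetSum _ fun i _ => integrable_lineDeriv_mul hg (b i) (hGi i)]
    refine integral_congr_ae ?_
    filter_upwards [hg.ae_differentiableAt] with x hx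
    rw [← b.sum_inner_mul_inner (G x) (gradient g x)]
    refine Finset.sum_congr rfl fun i _ => ?_
    rw [hx.lineDeriv_eq_fderiv, real_inner_comm (G x) (b i), mul_comm]
    congr 1
    rw [real_inner_comm, inner_gradient_left]
  simp_rw [fun n => key _ (hw n), key _ hu]
  exact tendsto_finsetSum _ fun i _ => tendsto_integral_lineDeriv_mul hw hu hlim (b i) (hGi i)

variable {κ : ℝ}

theorem gradient_mid_pair {U : Set E} {u v : E → ℝ} (hκ : 0 < κ) (hU : Bornology.IsBounded U)
    (hu : LipschitzWith L u) (hv : LipschitzWith L v) :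
    energy κ L U u + ∫ x in U, (dens κ L (gradient u x) * ⟪gradient u x, gradient v x - gradient u x⟫ / κ)
      ≤ energy κ L U v := by
  have hm : IntegrableOn
      (fun x => dens κ L (gradient u x) * ⟪gradient u x, gradient v x - gradient u x⟫ / κ) U := by
    refine Integrable.div_const ?_ κ
    refine IntegrableOn.of_bound hU.measure_lt_top
      ((((continuous_dens κ L).measurable.comp (measurable_gradient u)).mul
        ((measurable_gradient u).inner ((measurable_gradient v).sub (measurable_gradient u))))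
          ).aestronglyMeasurable ((L : ℝ) * (L + L)) (Eventually.of_forall fun x => ?_)
    simp only [norm_mul, Real.norm_eq_abs, abs_of_pos (dens_pos _ _ _)]
    calc _ ≤ 1 * ((L : ℝ) * (L + L)) := by
          refine mul_le_mul (dens_le_one hκ (norm_gradient_le hu x)) ?_ (abs_nonneg _) zero_le_one
          refine (abs_real_inner_le_norm _ _).trans (mul_le_mul (norm_gradient_le hu x) ?_
            (norm_nonneg _) L.coe_nonneg)
          exact (norm_sub_le _ _).trans (add_le_add (norm_gradient_le hv x) (norm_gradient_le hu x))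
      _ = _ := one_mul _
  rw [energy, energy, ← integral_add (integrableOn_dens hκ hU hu) hm]
  refine integral_mono ((integrableOn_dens hκ hU hu).add hm) (integrableOn_dens hκ hU hv)
    fun x => ?_
  have := dens_sub_ge (L := L) hκ (gradient u x) (gradient v x)
  simp only at this ⊢
  linarith

/-- Lower semicontinuity of the energy. -/
theorem energy_le_of_tendsto {U : Set E} (hκ : 0 < κ) (hU : Bornology.IsBounded U)
    (hUm : MeasurableSet U) {w : ℕ → E → ℝ} {u : E → ℝ}
    (hw : ∀ n, LipschitzWith L (w n)) (hu : LipschitzWith L u)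
    (hlim : ∀ x, Tendsto (fun n => w n x) atTop (𝓝 (u x))) {m : ℝ}
    (hm : Tendsto (fun n => energy κ L U (w n)) atTop (𝓝 m)) : energy κ L U u ≤ m := by
  set G : E → E := U.indicator fun x => (dens κ L (gradient u x) / κ) • gradient u x with hGdef
  have hG : Integrable G := by
    refine (integrable_indicator_iff hUm).2 ?_
    refine IntegrableOn.of_bound hU.measure_lt_top
      ((((continuous_dens κ L).measurable.comp (measurable_gradient u)).div_const κ).smul
        (measurable_gradient u)).aestronglyMeasurable (1 / κ * L)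
      (Eventually.of_forall fun x => ?_)
    rw [norm_smul, Real.norm_eq_abs, abs_of_pos (div_pos (dens_pos _ _ _) hκ)]
    exact mul_le_mul (div_le_div_of_nonneg_right (dens_le_one hκ (norm_gradient_le hu x)) hκ.le)
      (norm_gradient_le hu x) (norm_nonneg _) (by positivity)
  have hlimG := tendsto_integral_inner_gradient hw hu hlim hG
  have hint : ∀ g : E → ℝ, LipschitzWith L g → Integrable fun x => ⟪G x, gradient g x⟫ :=
    fun g hg => Integrable.mono' (hG.norm.mul_const (L : ℝ))
      (hG.aestronglyMeasurable.inner (measurable_gradient g).aestronglyMeasurable)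
      (Eventually.of_forall fun x => (norm_inner_le_norm _ _).trans
        (mul_le_mul_of_nonneg_left (norm_gradient_le hg x) (norm_nonneg _)))
  have hbound : ∀ n, energy κ L U u + ((∫ x, ⟪G x, gradient (w n) x⟫) -
      ∫ x, ⟪G x, gradient u x⟫) ≤ energy κ L U (w n) := fun n => by
    refine le_trans (le_of_eq ?_) (gradient_mid_pair hκ hU hu (hw n))
    congr 1
    rw [← integral_sub (hint _ (hw n)) (hint _ hu), ← integral_indicator hUm]
    refine integral_congr_ae (Eventually.of_forall fun x => ?_)
    by_cases hx : x ∈ U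
    · simp only [hGdef, indicator_of_mem hx]
      rw [real_inner_smul_left, real_inner_smul_left, inner_sub_right]
      ring
    · simp [hGdef, hx]
  have hleft : Tendsto (fun n => energy κ L U u + ((∫ x, ⟪G x, gradient (w n) x⟫) -
      ∫ x, ⟪G x, gradient u x⟫)) atTop (𝓝 (energy κ L U u)) := by
    simpa using (hlimG.sub_const (∫ x, ⟪G x, gradient u x⟫)).const_add (energy κ L U u)
  exact le_of_tendsto_of_tendsto' hleft hm hbound

/-- Existence of minimisers. -/
theorem exists_isMin [Nontrivial E] {D : Set E} (hκ : 0 < κ) (hD : Bornology.IsBounded D)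
    (hDm : MeasurableSet D) {f : E → ℝ} (hf : LipschitzWith L f) :
    ∃ u, IsMin κ L D u ∧ ∀ x ∉ D, u x = f x := by
  set S := {e : ℝ | ∃ w, LipschitzWith L w ∧ (∀ x ∉ D, w x = f x) ∧ energy κ L D w = e} with hS
  have hne : S.Nonempty := ⟨_, f, hf, fun x _ => rfl, rfl⟩
  have hbdd : BddBelow S := ⟨0, by
    rintro e ⟨w, -, -, rfl⟩
    exact setIntegral_nonneg hDm fun x _ => (dens_pos _ _ _).le⟩
  set m := sInf S with hm
  have hex : ∀ n : ℕ, ∃ w, LipschitzWith L w ∧ (∀ x ∉ D, w x = f x) ∧
      energy κ L D w < m + 1 / ((n : ℝ) + 1) := fun n => by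
    obtain ⟨e, ⟨w, h1, h2, rfl⟩, he⟩ := exists_lt_of_csInf_lt hne
      (show sInf S < m + 1 / ((n : ℝ) + 1) by
        have : (0 : ℝ) < 1 / ((n : ℝ) + 1) := by positivity
        rw [hm]; linarith)
    exact ⟨w, h1, h2, he⟩
  choose w hw hw0 hwe using hex
  have hlow : ∀ g, LipschitzWith L g → (∀ x ∉ D, g x = f x) → m ≤ energy κ L D g :=
    fun g hg hg0 => csInf_le hbdd ⟨g, hg, hg0, rfl⟩
  set c := Real.exp (-((L : ℝ) ^ 2) / (2 * κ)) / (8 * κ * (1 + (L : ℝ) ^ 2 / (2 * κ))) with hc
  have hc0 : 0 < c := gain_pos hκ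
  have hgrad : ∀ n k, c * ∫ x in D, ‖gradient (w n) x - gradient (w k) x‖ ^ 2 ≤
      1 / ((n : ℝ) + 1) + 1 / ((k : ℝ) + 1) := fun n k => by
    have h1 := energy_mid hκ hD (hw n) (hw k)
    have h2 := hlow _ (lipschitzWith_mid (hw n) (hw k))
      (fun x hx => by rw [hw0 n x hx, hw0 k x hx]; ring)
    have : (0 : ℝ) < 1 / ((n : ℝ) + 1) := by positivity
    have : (0 : ℝ) < 1 / ((k : ℝ) + 1) := by positivity
    linarith [hwe n, hwe k]
  have hcau : ∀ ε > 0, ∃ N, ∀ n ≥ N, ∀ k ≥ N, ∀ x, |w n x - w k x| ≤ ε := by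
    intro ε hε
    obtain ⟨η, hη, h⟩ := forall_exists_close (L := L) hD hε
    obtain ⟨N, hN⟩ := exists_nat_one_div_lt (show 0 < c * η / 2 by positivity)
    refine ⟨N, fun n hn k hk => h _ _ (hw n) (hw k)
      (fun x hx => by rw [hw0 n x hx, hw0 k x hx]) ?_⟩
    have mon : ∀ j : ℕ, N ≤ j → 1 / ((j : ℝ) + 1) ≤ 1 / ((N : ℝ) + 1) := fun j hj =>
      div_le_div_of_nonneg_left zero_le_one (by positivity) (by exact_mod_cast Nat.succ_le_succ hj)
    refine le_of_mul_le_mul_left ((hgrad n k).trans ?_) hc0
    linarith [mon n hn, mon k hk]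
  have hc' : ∀ x, ∃ l, Tendsto (fun n => w n x) atTop (𝓝 l) := fun x =>
    cauchySeq_tendsto_of_complete (Metric.cauchySeq_iff.2 fun ε hε => by
      obtain ⟨N, hN⟩ := hcau (ε / 2) (by positivity)
      exact ⟨N, fun n hn k hk => by rw [Real.dist_eq]; linarith [hN n hn k hk x]⟩)
  choose u hu using hc'
  have huL : LipschitzWith L u := LipschitzWith.of_dist_le_mul fun x y =>
    le_of_tendsto' ((hu x).dist (hu y)) fun n => (hw n).dist_le_mul x y
  have hu0 : ∀ x ∉ D, u x = f x := fun x hx =>
    tendsto_nhds_unique (hu x) (by simp only [fun n => hw0 n x hx]; exact tendsto_const_nhds)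
  have hE : Tendsto (fun n => energy κ L D (w n)) atTop (𝓝 m) := by
    refine tendsto_of_tendsto_of_tendsto_of_le_of_le tendsto_const_nhds
      (by simpa using tendsto_one_div_add_atTop_nhds_zero_nat.const_add m)
      (fun n => hlow _ (hw n) (hw0 n)) fun n => (hwe n).le
  refine ⟨u, ⟨huL, fun g hg hg0 => ?_⟩, hu0⟩
  exact (energy_le_of_tendsto hκ hD hDm hw huL hu hE).trans
    (hlow g hg fun x hx => (hg0 x hx).trans (hu0 x hx))

end Vale.Agent.P080C1.Exist
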