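import Mathlib

/-!
Gradients of Lipschitz functions: lattice operations, Poincare inequality, integration by parts.
-/

noncomputable section

open MeasureTheory Filter Topology Metric Set
open scoped NNReal RealInnerProductSpace Gradient

namespace Vale.Agent.P080C1.Exist

set_option linter.unusedSectionVars false

variable {E : Type*} [NormedAddCommGroup E] [InnerProductSpace ℝ E] [FiniteDimensional ℝ E]

theorem norm_gradient (f : E → ℝ) (x : E) : ‖gradient f x‖ = ‖fderiv ℝ f x‖ := by
  simp [gradient]

theorem norm_gradient_le {L : ℝ≥0} {f : E → ℝ} (hf : LipschitzWith L f) (x : E) :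
    ‖gradient f x‖ ≤ L := by
  rw [norm_gradient]; exact norm_fderiv_le_of_lipschitz ℝ hf

theorem fderiv_min_cases {f g : E → ℝ} {x : E} (hf : DifferentiableAt ℝ f x)
    (hg : DifferentiableAt ℝ g x) (hm : DifferentiableAt ℝ (fun y => min (f y) (g y)) x) :
    (f x ≤ g x → fderiv ℝ (fun y => min (f y) (g y)) x = fderiv ℝ f x) ∧
    (g x ≤ f x → fderiv ℝ (fun y => min (f y) (g y)) x = fderiv ℝ g x) := by
  constructor
  · intro h
    have hmax : IsLocalMax (fun y => min (f y) (g y) - f y) x :=
      Eventually.of_forall fun y => by simp [min_eq_left h]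
    have := hmax.fderiv_eq_zero
    rw [fderiv_fun_sub hm hf, sub_eq_zero] at this
    exact this
  · intro h
    have hmax : IsLocalMax (fun y => min (f y) (g y) - g y) x :=
      Eventually.of_forall fun y => by simp [min_eq_right h]
    have := hmax.fderiv_eq_zero
    rw [fderiv_fun_sub hm hg, sub_eq_zero] at this
    exact this

theorem fderiv_max_cases {f g : E → ℝ} {x : E} (hf : DifferentiableAt ℝ f x)
    (hg : DifferentiableAt ℝ g x) (hm : DifferentiableAt ℝ (fun y => max (f y) (g y)) x) :
    (g x ≤ f x → fderiv ℝ (fun y => max (f y) (g y)) x = fderiv ℝ f x) ∧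
    (f x ≤ g x → fderiv ℝ (fun y => max (f y) (g y)) x = fderiv ℝ g x) := by
  constructor
  · intro h
    have hmin : IsLocalMin (fun y => max (f y) (g y) - f y) x :=
      Eventually.of_forall fun y => by simp [max_eq_left h]
    have := hmin.fderiv_eq_zero
    rw [fderiv_fun_sub hm hf, sub_eq_zero] at this
    exact this
  · intro h
    have hmin : IsLocalMin (fun y => max (f y) (g y) - g y) x :=
      Eventually.of_forall fun y => by simp [max_eq_right h]
    have := hmin.fderiv_eq_zero
    rw [fderiv_fun_sub hm hg, sub_eq_zero] at this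
    exact this

variable [MeasurableSpace E] [BorelSpace E]

theorem measurable_gradient (f : E → ℝ) : Measurable (gradient f) :=
  (InnerProductSpace.toDual ℝ E).symm.continuous.measurable.comp (measurable_fderiv ℝ f)

/-- Almost everywhere the gradients of `min f g`, `max f g` are those of `f`, `g` in some order. -/
theorem ae_gradient_lattice {L M : ℝ≥0} {f g : E → ℝ} (hf : LipschitzWith L f)
    (hg : LipschitzWith M g) :
    ∀ᵐ x : E,
      (gradient (fun y => min (f y) (g y)) x = gradient f x ∧
        gradient (fun y => max (f y) (g y)) x = gradient g x) ∨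
      (gradient (fun y => min (f y) (g y)) x = gradient g x ∧
        gradient (fun y => max (f y) (g y)) x = gradient f x) := by
  filter_upwards [hf.ae_differentiableAt, hg.ae_differentiableAt,
    (hf.min hg).ae_differentiableAt, (hf.max hg).ae_differentiableAt] with x h1 h2 h3 h4
  rcases le_total (f x) (g x) with h | h
  · left; simp [gradient, (fderiv_min_cases h1 h2 h3).1 h, (fderiv_max_cases h1 h2 h4).2 h]
  · right; simp [gradient, (fderiv_min_cases h1 h2 h3).2 h, (fderiv_max_cases h1 h2 h4).1 h]

theorem ae_abs_lineDeriv_abs_le {L : ℝ≥0} {φ : E → ℝ} (hφ : LipschitzWith L φ) (v : E) :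
    ∀ᵐ x : E, |lineDeriv ℝ (fun y => |φ y|) x v| ≤ ‖gradient φ x‖ * ‖v‖ := by
  have habs : LipschitzWith (1 * L) (fun y => |φ y|) :=
    lipschitzWith_one_norm.comp hφ
  filter_upwards [hφ.ae_differentiableAt, habs.ae_differentiableAt] with x h1 h2
  have t1 := (h1.hasFDerivAt.hasLineDerivAt v).tendsto_slope_zero_right
  have t2 := (h2.hasFDerivAt.hasLineDerivAt v).tendsto_slope_zero_right
  rw [h2.lineDeriv_eq_fderiv]
  refine le_trans ?_ (le_trans (ContinuousLinearMap.le_opNorm (fderiv ℝ φ x) v)
    (le_of_eq (by rw [norm_gradient])))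
  refine le_of_tendsto_of_tendsto t2.abs t1.norm ?_
  filter_upwards [self_mem_nhdsWithin] with t ht
  simp only [smul_eq_mul, Real.norm_eq_abs, abs_mul]
  exact mul_le_mul_of_nonneg_left (abs_abs_sub_abs_le_abs_sub _ _) (abs_nonneg _)

theorem hasCompactSupport_of_eq_zero_off {D : Set E} (hD : Bornology.IsBounded D) {φ : E → ℝ}
    (h0 : ∀ x ∉ D, φ x = 0) : HasCompactSupport φ :=
  HasCompactSupport.intro hD.isCompact_closure fun x hx => h0 x fun h => hx (subset_closure h)

theorem gradient_eq_zero_off {D : Set E} {φ : E → ℝ}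
    (h0 : ∀ x ∉ D, φ x = 0) {x : E} (hx : x ∉ closure D) : gradient φ x = 0 := by
  have : φ =ᶠ[𝓝 x] fun _ => 0 :=
    mem_of_superset (isClosed_closure.isOpen_compl.mem_nhds hx)
      fun y hy => h0 y fun h => hy (subset_closure h)
  simp [gradient, this.fderiv_eq]

/-- Poincare inequality in L1 for Lipschitz functions vanishing off a bounded set. -/
theorem integral_abs_le [Nontrivial E] {L : ℝ≥0} {D : Set E} {φ : E → ℝ} {R : ℝ}
    (hD : closure D ⊆ closedBall 0 R) (hDb : Bornology.IsBounded D)
    (hφ : LipschitzWith L φ) (h0 : ∀ x ∉ D, φ x = 0) :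
    ∫ x : E, |φ x| ≤ R * ∫ x in closedBall (0 : E) R, ‖gradient φ x‖ := by
  obtain ⟨e, he⟩ := exists_norm_eq E (zero_le_one : (0 : ℝ) ≤ 1)
  have hs : HasCompactSupport fun y => |φ y| :=
    (hasCompactSupport_of_eq_zero_off hDb h0).comp_left (g := fun t : ℝ => |t|) abs_zero
  have habs : LipschitzWith (1 * L) (fun y => |φ y|) := lipschitzWith_one_norm.comp hφ
  have hlin : LipschitzWith ‖innerSL ℝ e‖₊ (fun x : E => ⟪e, x⟫) := (innerSL ℝ e).lipschitz
  have key := LipschitzWith.integral_lineDeriv_mul_eq (μ := volume) hlin habs hs e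
  have h1 : ∀ x : E, lineDeriv ℝ (fun x : E => ⟪e, x⟫) x e = 1 := by
    intro x
    have h : HasLineDerivAt ℝ (fun x : E => ⟪e, x⟫) ⟪e, e⟫ x e :=
      ((innerSL ℝ e).hasFDerivAt (x := x)).hasLineDerivAt e
    rw [h.lineDeriv]
    simp [he]
  simp only [h1, one_mul] at key
  rw [key, ← integral_const_mul, ← integral_indicator measurableSet_closedBall]
  refine le_trans (le_abs_self _) (le_trans abs_integral_le_integral_abs ?_)
  refine integral_mono_of_nonneg (Eventually.of_forall fun x => abs_nonneg _) ?_ ?_
  · refine IntegrableOn.integrable_indicator ?_ measurableSet_closedBall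
    refine Integrable.const_mul ?_ R
    exact IntegrableOn.of_bound measure_closedBall_lt_top
      (measurable_gradient φ).norm.aestronglyMeasurable (L : ℝ)
      (Eventually.of_forall fun x => by simpa using norm_gradient_le hφ x)
  · filter_upwards [ae_abs_lineDeriv_abs_le hφ (-e)] with x hx
    rw [norm_neg, he, mul_one] at hx
    by_cases hxb : x ∈ closedBall (0 : E) R
    · rw [indicator_of_mem hxb, abs_mul, mul_comm]
      have hxR : ‖x‖ ≤ R := by simpa using hxb
      have : |⟪e, x⟫| ≤ R := (abs_real_inner_le_norm e x).trans (by rw [he, one_mul]; exact hxR)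
      exact mul_le_mul this hx (abs_nonneg _) ((norm_nonneg x).trans hxR)
    · rw [indicator_of_notMem hxb]
      have hz : gradient φ x = 0 := gradient_eq_zero_off h0 fun h => hxb (hD h)
      rw [hz, norm_zero] at hx
      simp [abs_nonpos_iff.1 hx]

/-- A Lipschitz function with small integral is small everywhere. -/
theorem abs_le_of_integral_lt {L : ℝ≥0} {φ : E → ℝ} (hφ : LipschitzWith L φ)
    (hint : Integrable φ) {ε : ℝ} (hε : 0 < ε)
    (h : ∫ x : E, |φ x| < ε / 2 * volume.real (ball (0 : E) (ε / (2 * (L + 1))))) (x : E) :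
    |φ x| ≤ ε := by
  by_contra hx
  push Not at hx
  set ρ := ε / (2 * ((L : ℝ) + 1)) with hρ
  have hρ0 : 0 < ρ := by positivity
  have hlow : ∀ y ∈ ball x ρ, ε / 2 ≤ |φ y| := by
    intro y hy
    have h1 : |φ x - φ y| ≤ L * dist x y := by simpa [Real.dist_eq] using hφ.dist_le_mul x y
    have h2 : (L : ℝ) * dist x y ≤ (L + 1) * ρ := by
      rw [dist_comm]
      exact mul_le_mul (by linarith) (mem_ball.1 hy).le dist_nonneg (by positivity)
    have h3 : ((L : ℝ) + 1) * ρ = ε / 2 := by rw [hρ]; field_simp
    have := abs_sub_abs_le_abs_sub (φ x) (φ y)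
    linarith
  have h1 : ε / 2 * volume.real (ball x ρ) ≤ ∫ y in ball x ρ, |φ y| :=
    (setIntegral_ge_of_const_le_real measurableSet_ball measure_ball_lt_top.ne hlow
      hint.norm.integrableOn)
  have h2 : ∫ y in ball x ρ, |φ y| ≤ ∫ y, |φ y| :=
    setIntegral_le_integral hint.norm (Eventually.of_forall fun y => abs_nonneg _)
  have h3 : volume.real (ball x ρ) = volume.real (ball (0 : E) ρ) := by
    simp [measureReal_def, Measure.addHaar_ball_center]
  rw [h3] at h1
  linarith

end Vale.Agent.P080C1.Exist
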