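import Vale.Agent.P080C1.Exist.Div

/-!
Mollification by normalised bumps: gradients of Lipschitz functions and `L²` approximation.
-/

noncomputable section

open MeasureTheory Filter Topology Metric Set Function
open scoped NNReal RealInnerProductSpace Gradient ContDiff Convolution

namespace Vale.Agent.P080C1.Exist

set_option linter.unusedSectionVars false

variable {E : Type*} [NormedAddCommGroup E] [InnerProductSpace ℝ E] [FiniteDimensional ℝ E]
  [MeasurableSpace E] [BorelSpace E]
  {F : Type*} [NormedAddCommGroup F] [InnerProductSpace ℝ F] [CompleteSpace F]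

/-- The standard sequence of bumps. -/
def bmp (n : ℕ) : ContDiffBump (0 : E) :=
  ⟨1 / (2 * ((n : ℝ) + 1)), 1 / ((n : ℝ) + 1), by positivity,
    div_lt_div_of_pos_left one_pos (by positivity) (by linarith [n.cast_nonneg (α := ℝ)])⟩

theorem bmp_rOut (n : ℕ) : (bmp n : ContDiffBump (0 : E)).rOut = 1 / ((n : ℝ) + 1) := rfl

theorem tendsto_bmp_rOut :
    Tendsto (fun n => (bmp n : ContDiffBump (0 : E)).rOut) atTop (𝓝 0) := by
  simp only [bmp_rOut]
  exact tendsto_one_div_add_atTop_nhds_zero_nat

theorem eventually_bmp_le {δ : ℝ} (hδ : 0 < δ) :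
    ∀ᶠ n in atTop, (bmp n : ContDiffBump (0 : E)).rOut ≤ δ :=
  tendsto_bmp_rOut.eventually_le_const hδ

/-- Mollification. -/
def mol (φ : ContDiffBump (0 : E)) (f : E → F) : E → F :=
  φ.normed volume ⋆[ContinuousLinearMap.lsmul ℝ ℝ, volume] f

theorem mol_apply (φ : ContDiffBump (0 : E)) (f : E → F) (x : E) :
    mol φ f x = ∫ y, φ.normed volume y • f (x - y) := rfl

theorem mol_apply' (φ : ContDiffBump (0 : E)) (f : E → F) (x : E) :
    mol φ f x = ∫ y, φ.normed volume (x - y) • f y := convolution_lsmul_swap

theorem contDiff_mol (φ : ContDiffBump (0 : E)) {f : E → F} (hf : LocallyIntegrable f volume)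
    {n : ℕ∞} : ContDiff ℝ n (mol φ f) :=
  φ.hasCompactSupport_normed.contDiff_convolution_left _ φ.contDiff_normed hf

theorem continuous_mol (φ : ContDiffBump (0 : E)) {f : E → F} (hf : LocallyIntegrable f volume) :
    Continuous (mol φ f) :=
  φ.hasCompactSupport_normed.continuous_convolution_left _ φ.continuous_normed hf

theorem integrable_mol_integrand (φ : ContDiffBump (0 : E)) {f : E → F}
    (hf : LocallyIntegrable f volume) (x : E) :
    Integrable fun y => φ.normed volume y • f (x - y) :=
  φ.hasCompactSupport_normed.convolutionExists_left (ContinuousLinearMap.lsmul ℝ ℝ)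
    φ.continuous_normed hf x

/-- The mollification only sees values in the closed ball of radius `rOut`. -/
theorem mol_congr (φ : ContDiffBump (0 : E)) {f g : E → F} {x : E}
    (h : EqOn f g (closedBall x φ.rOut)) : mol φ f x = mol φ g x := by
  simp only [mol_apply]
  refine integral_congr_ae (Eventually.of_forall fun y => ?_)
  by_cases hy : y ∈ ball (0 : E) φ.rOut
  · dsimp only
    rw [h (by
      rw [mem_closedBall, dist_eq_norm, sub_sub_cancel_left, norm_neg]
      exact (mem_ball_zero_iff.1 hy).le)]
  · have : φ.normed volume y = 0 := by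
      rw [← notMem_support, φ.support_normed_eq]; exact hy
    simp [this]

theorem norm_mol_le (φ : ContDiffBump (0 : E)) {f : E → F} (hf : LocallyIntegrable f volume)
    {C : ℝ} (hC : ∀ x, ‖f x‖ ≤ C) (x : E) : ‖mol φ f x‖ ≤ C := by
  rw [mol_apply]
  refine (norm_integral_le_integral_norm _).trans ?_
  calc ∫ y, ‖φ.normed volume y • f (x - y)‖ ≤ ∫ y, φ.normed volume y * C := by
        refine integral_mono (integrable_mol_integrand φ hf x).norm
          (φ.integrable_normed.mul_const C) fun y => ?_
        dsimp only
        rw [norm_smul, Real.norm_eq_abs, abs_of_nonneg (φ.nonneg_normed y)]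
        exact mul_le_mul_of_nonneg_left (hC _) (φ.nonneg_normed y)
    _ = C := by rw [integral_mul_const, φ.integral_normed, one_mul]

variable {L : ℝ≥0} {u : E → ℝ}

theorem lipschitz_mol (φ : ContDiffBump (0 : E)) (hu : LipschitzWith L u) :
    LipschitzWith L (mol φ u) := by
  refine LipschitzWith.of_dist_le_mul fun x z => ?_
  rw [dist_eq_norm, mol_apply, mol_apply,
    ← integral_sub (integrable_mol_integrand φ hu.continuous.locallyIntegrable x)
      (integrable_mol_integrand φ hu.continuous.locallyIntegrable z)]
  refine (norm_integral_le_integral_norm _).trans ?_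
  calc ∫ y, ‖φ.normed volume y • u (x - y) - φ.normed volume y • u (z - y)‖
      ≤ ∫ y, φ.normed volume y * (L * dist x z) := by
        refine integral_mono_of_nonneg (Eventually.of_forall fun _ => norm_nonneg _)
          (φ.integrable_normed.mul_const _) (Eventually.of_forall fun y => ?_)
        dsimp only
        rw [← smul_sub, norm_smul, Real.norm_eq_abs, abs_of_nonneg (φ.nonneg_normed y)]
        refine mul_le_mul_of_nonneg_left ?_ (φ.nonneg_normed y)
        simpa [dist_eq_norm] using hu.dist_le_mul (x - y) (z - y)
    _ = L * dist x z := by rw [integral_mul_const, φ.integral_normed, one_mul]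

theorem abs_mol_sub_le (φ : ContDiffBump (0 : E)) (hu : LipschitzWith L u) (x : E) :
    |mol φ u x - u x| ≤ L * φ.rOut := by
  rw [← Real.dist_eq]
  refine φ.dist_normed_convolution_le hu.continuous.aestronglyMeasurable fun y hy => ?_
  exact (hu.dist_le_mul y x).trans (mul_le_mul_of_nonneg_left (mem_ball.1 hy).le L.coe_nonneg)

theorem locallyIntegrable_gradient (hu : LipschitzWith L u) :
    LocallyIntegrable (gradient u) volume := fun x =>
  ⟨closedBall x 1, closedBall_mem_nhds x one_pos,
    IntegrableOn.of_bound measure_closedBall_lt_top (measurable_gradient u).aestronglyMeasurable L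
      (Eventually.of_forall fun y => norm_gradient_le hu y)⟩

/-- The gradient commutes with mollification. -/
theorem gradient_mol (φ : ContDiffBump (0 : E)) (hu : LipschitzWith L u) (x : E) :
    gradient (mol φ u) x = mol φ (gradient u) x := by
  have hmeas : AEStronglyMeasurable
      (fun y => φ.normed volume y • fderiv ℝ u (x - y)) volume :=
    φ.continuous_normed.aestronglyMeasurable.smul
      ((measurable_fderiv ℝ u).comp (measurable_const.sub measurable_id)).aestronglyMeasurable
  have hdiff : ∀ᵐ y, DifferentiableAt ℝ u (x - y) := by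
    have h := (quasiMeasurePreserving_sub_left_of_right_invariant volume x).ae hu.ae_differentiableAt
    exact h
  obtain ⟨hint, hd⟩ := hasFDerivAt_integral_of_dominated_loc_of_lip'
    (μ := (volume : Measure E)) (F := fun z y => φ.normed volume y • u (z - y))
    (F' := fun y => φ.normed volume y • fderiv ℝ u (x - y))
    (bound := fun y => φ.normed volume y * L) (x₀ := x) (s := univ) univ_mem
    (fun z _ => (φ.continuous_normed.smul
      (hu.continuous.comp (continuous_const.sub continuous_id))).aestronglyMeasurable)
    (integrable_mol_integrand φ hu.continuous.locallyIntegrable x) hmeas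
    (Eventually.of_forall fun y z _ => by
      rw [← smul_sub, norm_smul, Real.norm_eq_abs, abs_of_nonneg (φ.nonneg_normed y), mul_assoc]
      refine mul_le_mul_of_nonneg_left ?_ (φ.nonneg_normed y)
      have := hu.norm_sub_le (z - y) (x - y)
      rwa [sub_sub_sub_cancel_right] at this)
    (φ.integrable_normed.mul_const _)
    (by
      filter_upwards [hdiff] with y hy
      have h1 := hy.hasFDerivAt.comp x ((hasFDerivAt_id (𝕜 := ℝ) x).sub_const y)
      exact h1.const_smul (φ.normed volume y))
  have hd' : HasFDerivAt (mol φ u) (∫ y, φ.normed volume y • fderiv ℝ u (x - y)) x := hd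
  refine ext_inner_right ℝ fun v => ?_
  rw [inner_gradient_left, hd'.fderiv, ContinuousLinearMap.integral_apply hint, mol_apply,
    real_inner_comm, ← integral_inner (integrable_mol_integrand φ (locallyIntegrable_gradient hu) x)]
  refine integral_congr_ae (Eventually.of_forall fun y => ?_)
  simp only [_root_.smul_apply, smul_eq_mul]
  rw [real_inner_smul_right, real_inner_comm, inner_gradient_left]

/-- Jensen. -/
theorem sq_norm_mol_le (φ : ContDiffBump (0 : E)) {f : E → F} (hf : MemLp f 2 volume) (x : E) :
    ‖mol φ f x‖ ^ 2 ≤ mol φ (fun y => ‖f y‖ ^ 2) x := by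
  have hli : LocallyIntegrable f volume := hf.locallyIntegrable (by norm_num)
  have h2 : LocallyIntegrable (fun y => ‖f y‖ ^ 2) volume :=
    (hf.norm.integrable_sq).locallyIntegrable
  set m := ‖mol φ f x‖ with hm
  have h1 : m ≤ ∫ y, ‖φ.normed volume y • f (x - y)‖ := norm_integral_le_integral_norm _
  have key : ∫ y, (2 * m * ‖φ.normed volume y • f (x - y)‖ - m ^ 2 * φ.normed volume y) ≤
      mol φ (fun y => ‖f y‖ ^ 2) x := by
    rw [mol_apply φ fun y => ‖f y‖ ^ 2]
    refine integral_mono (((integrable_mol_integrand φ hli x).norm.const_mul _).sub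
      (φ.integrable_normed.const_mul _)) (integrable_mol_integrand φ h2 x) fun y => ?_
    dsimp only
    rw [norm_smul, Real.norm_eq_abs, abs_of_nonneg (φ.nonneg_normed y), smul_eq_mul]
    nlinarith [mul_nonneg (φ.nonneg_normed (μ := volume) y) (sq_nonneg (m - ‖f (x - y)‖))]
  rw [integral_sub ((integrable_mol_integrand φ hli x).norm.const_mul _)
      (φ.integrable_normed.const_mul _), integral_const_mul, integral_const_mul,
    φ.integral_normed] at key
  have := mul_le_mul_of_nonneg_left h1 (show 0 ≤ 2 * m by positivity)
  nlinarith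

/-- Mollifications converge in `L²`. -/
theorem tendsto_integral_sq_mol_sub {f : E → F} (hf : MemLp f 2 volume) :
    Tendsto (fun n => ∫ x, ‖mol (bmp n) f x - f x‖ ^ 2) atTop (𝓝 0) := by
  set g : E → ℝ := fun x => ‖f x‖ ^ 2 with hg
  have hgi : Integrable g := hf.norm.integrable_sq
  have hli : LocallyIntegrable f volume := hf.locallyIntegrable (by norm_num)
  have hGi : ∀ n, Integrable fun x => 2 * mol (bmp n) g x + 2 * g x := fun n =>
    (((bmp n).integrable_normed.integrable_convolution _ hgi).const_mul 2).add (hgi.const_mul 2)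
  have hhm : ∀ n, AEStronglyMeasurable (fun x => ‖mol (bmp n) f x - f x‖ ^ 2) volume := fun n =>
    (((continuous_mol _ hli).aestronglyMeasurable.sub hf.aestronglyMeasurable).norm.pow 2)
  have hhle : ∀ n x, ‖mol (bmp n) f x - f x‖ ^ 2 ≤ 2 * mol (bmp n) g x + 2 * g x := by
    intro n x
    have h1 := pow_le_pow_left₀ (norm_nonneg _) (norm_sub_le (mol (bmp n) f x) (f x)) 2
    have h2 := sq_norm_mol_le (bmp n) hf x
    have h3 := add_sq_le (a := ‖mol (bmp n) f x‖) (b := ‖f x‖)
    simp only [hg] at h2 ⊢
    linarith
  have hhi : ∀ n, Integrable fun x => ‖mol (bmp n) f x - f x‖ ^ 2 := fun n =>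
    (hGi n).mono' (hhm n) (Eventually.of_forall fun x => by
      rw [Real.norm_eq_abs, abs_of_nonneg (sq_nonneg _)]; exact hhle n x)
  set d : ℕ → E → ℝ := fun n x =>
    min (2 * mol (bmp n) g x + 2 * g x - ‖mol (bmp n) f x - f x‖ ^ 2) (4 * g x) with hd
  have hdlim : Tendsto (fun n => ∫ x, d n x) atTop (𝓝 (∫ x, 4 * g x)) := by
    refine tendsto_integral_of_dominated_convergence (fun x => 4 * g x)
      (fun n => ((hGi n).aestronglyMeasurable.sub (hhm n)).inf (hgi.const_mul 4).aestronglyMeasurable)
      (hgi.const_mul 4) (fun n => Eventually.of_forall fun x => ?_) ?_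
    · rw [Real.norm_eq_abs, abs_of_nonneg (le_min (sub_nonneg.2 (hhle n x)) (by positivity))]
      exact min_le_right _ _
    · have hr : ∀ᶠ n in atTop, (bmp n : ContDiffBump (0 : E)).rOut ≤ 2 * (bmp n : ContDiffBump (0 : E)).rIn :=
        Eventually.of_forall fun n => le_of_eq (by simp [bmp]; field_simp)
      filter_upwards [ContDiffBump.ae_convolution_tendsto_right_of_locallyIntegrable
          (μ := (volume : Measure E)) tendsto_bmp_rOut hr hgi.locallyIntegrable,
        ContDiffBump.ae_convolution_tendsto_right_of_locallyIntegrable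
          (μ := (volume : Measure E)) tendsto_bmp_rOut hr hli] with x a b
      have : Tendsto (fun n => d n x) atTop
          (𝓝 (min (2 * g x + 2 * g x - ‖f x - f x‖ ^ 2) (4 * g x))) :=
        ((((a.const_mul 2).add_const _).sub ((b.sub_const _).norm.pow 2))).min tendsto_const_nhds
      convert this using 2
      rw [sub_self, norm_zero]
      ring_nf
      exact (min_self _).symm
  have hup : ∀ n, ∫ x, ‖mol (bmp n) f x - f x‖ ^ 2 ≤ (∫ x, 4 * g x) - ∫ x, d n x := fun n => by
    have h1 : ∫ x, (2 * mol (bmp n) g x + 2 * g x) = ∫ x, 4 * g x := by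
      rw [integral_add (f := fun x => 2 * mol (bmp n) g x) (g := fun x => 2 * g x)
        (((bmp n).integrable_normed.integrable_convolution _ hgi).const_mul 2)
        (hgi.const_mul 2), integral_const_mul, integral_const_mul, integral_const_mul, mol,
        integral_convolution _ (bmp n).integrable_normed hgi, (bmp n).integral_normed]
      simp
      ring
    have hdi : Integrable (d n) := ((hGi n).sub (hhi n)).inf (hgi.const_mul 4)
    have h2 : ∫ x, d n x ≤ ∫ x, (2 * mol (bmp n) g x + 2 * g x - ‖mol (bmp n) f x - f x‖ ^ 2) :=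
      integral_mono hdi ((hGi n).sub (hhi n)) fun x => min_le_left _ _
    rw [integral_sub (hGi n) (hhi n), h1] at h2
    linarith
  refine squeeze_zero (fun n => integral_nonneg fun x => sq_nonneg _) hup ?_
  simpa using hdlim.const_sub (∫ x, 4 * g x)

end Vale.Agent.P080C1.Exist
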