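import Vale.Agent.P080C1.Exist.Div

/-!
Smooth supersolutions are minimal from above; the boundary barrier.
-/

noncomputable section

open MeasureTheory Filter Topology Metric Set
open scoped NNReal RealInnerProductSpace Gradient ContDiff

namespace Vale.Agent.P080C1.Exist

set_option linter.unusedSectionVars false

variable {E : Type*} [NormedAddCommGroup E] [InnerProductSpace ℝ E] [FiniteDimensional ℝ E]

/-- Derivative of the flux `dens (g) • g`. -/
theorem hasFDerivAt_flux {κ L : ℝ} {g : E → E} {M : E →L[ℝ] E} {x : E}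
    (hg : HasFDerivAt g M x) :
    HasFDerivAt (fun y => dens κ L (g y) • g y)
      (dens κ L (g x) • M +
        ((dens κ L (g x) / κ) • (innerSL ℝ (g x)).comp M).smulRight (g x)) x := by
  have h1 : HasFDerivAt (fun y => dens κ L (g y))
      ((dens κ L (g x) / κ) • (innerSL ℝ (g x)).comp M) x := by
    have h := (((hg.norm_sq).sub_const (L ^ 2)).mul_const (2 * κ)⁻¹).exp
    simp only [← div_eq_mul_inv] at h
    refine h.congr_fderiv ?_
    refine ContinuousLinearMap.ext fun v => ?_
    simp [dens]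
    ring
  exact h1.smul hg

theorem trace_flux {κ L : ℝ} {g : E → E} {M : E →L[ℝ] E} {x : E} (hg : HasFDerivAt g M x) :
    trace (fderiv ℝ (fun y => dens κ L (g y) • g y) x) =
      dens κ L (g x) * (trace M + ⟪g x, M (g x)⟫ / κ) := by
  rw [(hasFDerivAt_flux hg).fderiv, trace_add, trace_smul, trace_smulRight]
  simp
  ring

theorem contDiff_gradient {f : E → ℝ} (hf : ContDiff ℝ 2 f) : ContDiff ℝ 1 (gradient f) := by
  have h : ContDiff ℝ 1 (fderiv ℝ f) := hf.fderiv_right (by norm_num)
  exact (InnerProductSpace.toDual ℝ E).symm.contDiff.comp h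

theorem gradient_eq_of_eventuallyEq {f g : E → ℝ} {x : E} (h : f =ᶠ[𝓝 x] g) :
    gradient f x = gradient g x := by
  simp [gradient, h.fderiv_eq]

variable [MeasurableSpace E] [BorelSpace E] {L : ℝ≥0} {κ : ℝ} {U : Set E}

/-- A function agreeing on `U` with a smooth supersolution is minimal from above. -/
theorem energy_le_of_super (hκ : 0 < κ) (hU : Bornology.IsBounded U) (hUo : IsOpen U)
    {ψ Ψ : E → ℝ} (hψ : LipschitzWith L ψ) (hΨ : ContDiff ℝ 2 Ψ) (heq : EqOn ψ Ψ U)
    (hsup : ∀ x ∈ U, trace (fderiv ℝ (gradient Ψ) x) +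
      ⟪gradient Ψ x, fderiv ℝ (gradient Ψ) x (gradient Ψ x)⟫ / κ ≤ 0)
    (w : E → ℝ) (hw : LipschitzWith L w) (hge : ∀ x, ψ x ≤ w x) (h0 : ∀ x ∉ U, w x = ψ x) :
    energy κ L U ψ ≤ energy κ L U w := by
  set G : E → E := fun y => dens κ L (gradient Ψ y) • gradient Ψ y with hG
  have hG1 : ContDiff ℝ 1 G := by
    have hg := contDiff_gradient hΨ
    exact (Real.contDiff_exp.comp (((hg.norm_sq ℝ).sub contDiff_const).div_const _)).smul hg
  have hd : LipschitzWith (L + L) fun x => w x - ψ x := hw.sub hψ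
  have key := integral_inner_gradient_eq hU hUo hd (fun x hx => sub_eq_zero.2 (h0 x hx)) hG1
  have hnn : 0 ≤ ∫ x in U, ⟪G x, gradient (fun x => w x - ψ x) x⟫ := by
    rw [key, neg_nonneg]
    refine setIntegral_nonpos hUo.measurableSet fun x hx => ?_
    refine mul_nonpos_of_nonpos_of_nonneg ?_ (sub_nonneg.2 (hge x))
    rw [hG, trace_flux ((contDiff_gradient hΨ).differentiable one_ne_zero x).hasFDerivAt]
    exact mul_nonpos_of_nonneg_of_nonpos (dens_pos _ _ _).le (hsup x hx)
  refine le_trans ?_ (gradient_mid_pair hκ hU hψ hw)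
  refine le_add_of_nonneg_right ?_
  have heq2 : ∫ x in U, (dens κ L (gradient ψ x) *
      ⟪gradient ψ x, gradient w x - gradient ψ x⟫ / κ) =
      (∫ x in U, ⟪G x, gradient (fun x => w x - ψ x) x⟫) / κ := by
    rw [← integral_div]
    refine setIntegral_congr_ae hUo.measurableSet ?_
    filter_upwards [hw.ae_differentiableAt, hψ.ae_differentiableAt] with x a b hx
    have h1 : gradient ψ x = gradient Ψ x :=
      gradient_eq_of_eventuallyEq (mem_of_superset (hUo.mem_nhds hx) heq)
    have h2 : gradient (fun x => w x - ψ x) x = gradient w x - gradient ψ x := by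
      simp [gradient, fderiv_fun_sub a b]
    rw [hG, h2, real_inner_smul_left, h1]
  rw [heq2]
  exact div_nonneg hnn hκ.le

theorem energy_neg (w : E → ℝ) : energy κ L U (fun x => -w x) = energy κ L U w := by
  have : ∀ x, gradient (fun x => -w x) x = -gradient w x := fun x => by
    simp [gradient, fderiv_fun_neg]
  simp [energy, dens, this]

theorem IsMin.neg {u : E → ℝ} (hu : IsMin κ L U u) : IsMin κ L U fun x => -u x := by
  refine ⟨hu.1.neg, fun w hw h0 => ?_⟩
  rw [energy_neg, ← energy_neg w]
  exact hu.2 _ hw.neg fun x hx => by simp [h0 x hx]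

end Vale.Agent.P080C1.Exist
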