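import Vale.Agent.P080C1.Exist.DiffQuot
import Vale.Agent.P080C1.Exist.Mol
import Vale.Agent.P080C1.Exist.Super

/-!
Weak Hessian of an unconstrained minimiser, strong `L²_loc` convergence of the Hessians of its
mollifications, and vanishing of their residual `⟨D²v Dv, Dv⟩ + κ Δv`.
-/

noncomputable section

open MeasureTheory Filter Topology Metric Set Function
open scoped NNReal RealInnerProductSpace Gradient ContDiff

namespace Vale.Agent.P080C1.Exist

set_option linter.unusedSectionVars false

variable {E : Type*} [NormedAddCommGroup E] [InnerProductSpace ℝ E] [FiniteDimensional ℝ E]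
  [MeasurableSpace E] [BorelSpace E]

variable {κ : ℝ} {L L' : ℝ≥0} {U : Set E} {u : E → ℝ}

theorem gradient_mol_fun (φ : ContDiffBump (0 : E)) (hu : LipschitzWith L u) :
    gradient (mol φ u) = mol φ (gradient u) :=
  funext (gradient_mol φ hu)

/-- One column of the weak Hessian. -/
theorem exists_weak_deriv (hu : LipschitzWith L u) {K K₁ : Set E} (hK₁ : IsCompact K₁) {r δ C : ℝ}
    (hr : ∀ x ∈ K, closedBall x r ⊆ K₁) (hδ : 0 < δ)
    (hb : ∀ h : E, ‖h‖ ≤ δ → ∫ x in K₁, ‖gradient u (x + h) - gradient u x‖ ^ 2 ≤ C * ‖h‖ ^ 2)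
    (e : E) :
    ∃ H : E → E, MemLp H 2 volume ∧ ∀ φ : ContDiffBump (0 : E), φ.rOut ≤ r → ∀ x ∈ K,
      fderiv ℝ (gradient (mol φ u)) x e = mol φ H x := by
  set μ : Measure E := volume.restrict K₁ with hμ
  have : IsFiniteMeasure μ := isFiniteMeasure_restrict.2 hK₁.measure_lt_top.ne
  set g := gradient u with hg
  have hgm : Measurable g := measurable_gradient u
  set q : ℝ → E → E := fun t x => t⁻¹ • (g (x + t • e) - g x) with hq
  have hqm : ∀ t, Measurable (q t) := fun t =>
    ((hgm.comp (measurable_add_const _)).sub hgm).const_smul _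
  have hqb : ∀ t x, ‖q t x‖ ≤ |t|⁻¹ * (L + L) := fun t x => by
    simp only [hq, norm_smul, norm_inv, Real.norm_eq_abs]
    exact mul_le_mul_of_nonneg_left ((norm_sub_le _ _).trans
      (add_le_add (norm_gradient_le hu _) (norm_gradient_le hu _))) (by positivity)
  have hqL : ∀ t, MemLp (q t) 2 μ := fun t =>
    MemLp.of_bound (hqm t).aestronglyMeasurable _ (Eventually.of_forall (hqb t))
  set Q : ℝ → Lp E 2 μ := fun t => (hqL t).toLp (q t) with hQ
  set R := Real.sqrt (|C| * ‖e‖ ^ 2) with hR
  have hev : ∀ᶠ t in 𝓝[>] (0 : ℝ), ‖Q t‖ ≤ R := by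
    have h0 : Tendsto (fun t : ℝ => ‖t • e‖) (𝓝[>] 0) (𝓝 0) := by
      have : Continuous fun t : ℝ => ‖t • e‖ := by fun_prop
      simpa using (this.tendsto 0).mono_left nhdsWithin_le_nhds
    filter_upwards [self_mem_nhdsWithin, h0.eventually_le_const hδ] with t ht htd
    have ht0 : (0 : ℝ) < t := ht
    refine Real.le_sqrt_of_sq_le ?_
    rw [← real_inner_self_eq_norm_sq, L2.inner_def]
    calc ∫ x, ⟪Q t x, Q t x⟫ ∂μ = (t⁻¹) ^ 2 * ∫ x in K₁, ‖g (x + t • e) - g x‖ ^ 2 := by
          rw [← integral_const_mul]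
          refine integral_congr_ae ?_
          filter_upwards [(hqL t).coeFn_toLp] with x hx
          rw [hQ, hx, real_inner_self_eq_norm_sq, hq, norm_smul, mul_pow, Real.norm_eq_abs, sq_abs]
      _ ≤ (t⁻¹) ^ 2 * (|C| * ‖t • e‖ ^ 2) := by
          refine mul_le_mul_of_nonneg_left ((hb _ htd).trans ?_) (by positivity)
          exact mul_le_mul_of_nonneg_right (le_abs_self C) (sq_nonneg _)
      _ = |C| * ‖e‖ ^ 2 := by
          rw [norm_smul, mul_pow, Real.norm_eq_abs, sq_abs]; field_simp
  set T : ℝ → WeakDual ℝ (Lp E 2 μ) := fun t =>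
    StrongDual.toWeakDual (InnerProductSpace.toDual ℝ (Lp E 2 μ) (Q t)) with hT
  set F : Ultrafilter ℝ := Ultrafilter.of (𝓝[>] (0 : ℝ)) with hF
  have hFle : (F : Filter ℝ) ≤ 𝓝[>] 0 := Ultrafilter.of_le _
  have hball : ((F.map T : Ultrafilter _) : Filter (WeakDual ℝ (Lp E 2 μ))) ≤
      𝓟 (WeakDual.toStrongDual ⁻¹' closedBall 0 R) := by
    rw [le_principal_iff, Ultrafilter.coe_map, Filter.mem_map]
    refine hFle ?_
    filter_upwards [hev] with t ht
    have h1 : ‖InnerProductSpace.toDual ℝ (Lp E 2 μ) (Q t)‖ ≤ R := by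
      rw [LinearIsometryEquiv.norm_map]; exact ht
    exact mem_closedBall_zero_iff.2 h1
  obtain ⟨Λ, -, hΛ⟩ := (WeakDual.isCompact_closedBall (𝕜 := ℝ) (0 : StrongDual ℝ (Lp E 2 μ)) R)
    |>.ultrafilter_le_nhds (F.map T) hball
  set H₀ : Lp E 2 μ := (InnerProductSpace.toDual ℝ (Lp E 2 μ)).symm (WeakDual.toStrongDual Λ)
    with hH₀
  have hweak : ∀ ψ : Lp E 2 μ, Tendsto (fun t => ⟪Q t, ψ⟫) F (𝓝 ⟪H₀, ψ⟫) := fun ψ => by
    have h1 : Tendsto T F (𝓝 Λ) := hΛ
    have h2 := ((WeakDual.eval_continuous ψ).tendsto Λ).comp h1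
    have h3 : ⟪H₀, ψ⟫ = Λ ψ := InnerProductSpace.toDual_symm_apply
    rw [h3]
    exact h2
  refine ⟨K₁.indicator (H₀ : E → E), (memLp_indicator_iff_restrict hK₁.measurableSet).2
    (Lp.memLp H₀), fun φ hφ x hx => ext_inner_right ℝ fun c => ?_⟩
  set w : E → ℝ := fun y => φ.normed volume (x - y) with hw
  have hwc : Continuous w := φ.continuous_normed.comp (continuous_const.sub continuous_id)
  have hwsupp : ∀ y ∉ K₁, w y = 0 := fun y hy => by
    rw [hw, ← notMem_support, φ.support_normed_eq]
    intro h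
    refine hy (hr x hx ?_)
    rw [mem_closedBall, dist_comm, dist_eq_norm]
    exact (mem_ball_zero_iff.1 h).le.trans hφ
  have hψL : MemLp (fun y => w y • c) 2 μ := by
    obtain ⟨B, hB⟩ := hK₁.exists_bound_of_continuousOn (hwc.smul (continuous_const (y := c))).continuousOn
    exact MemLp.of_bound (hwc.smul (continuous_const (y := c))).aestronglyMeasurable B
      ((ae_restrict_iff' hK₁.measurableSet).2 (Eventually.of_forall hB))
  set ψ := hψL.toLp _ with hψ
  have hpair : ∀ (P : E → E) (Z : Lp E 2 μ), LocallyIntegrable P volume → ⇑Z =ᵐ[μ] P →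
      ⟪Z, ψ⟫ = ⟪mol φ P x, c⟫ := fun P Z hP hZ => by
    have hint : Integrable fun y => w y • P y := by
      have h := (integrable_mol_integrand φ hP x).comp_sub_left x
      simpa [hw, sub_sub_cancel] using h
    calc ⟪Z, ψ⟫ = ∫ y in K₁, ⟪c, w y • P y⟫ := by
          rw [L2.inner_def]
          refine integral_congr_ae ?_
          filter_upwards [hZ, hψL.coeFn_toLp] with y hy1 hy2
          rw [hy1, hy2, real_inner_smul_right, real_inner_smul_right, real_inner_comm]
      _ = ∫ y, ⟪c, w y • P y⟫ :=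
          setIntegral_eq_integral_of_forall_compl_eq_zero fun y hy => by simp [hwsupp y hy]
      _ = ⟪mol φ P x, c⟫ := by rw [integral_inner hint, real_inner_comm, mol_apply']
  have hgi : LocallyIntegrable g volume := locallyIntegrable_gradient hu
  have hQlim : Tendsto (fun t => ⟪Q t, ψ⟫) (𝓝[>] (0 : ℝ))
      (𝓝 ⟪fderiv ℝ (gradient (mol φ u)) x e, c⟫) := by
    rw [gradient_mol_fun φ hu]
    have hd := (((contDiff_mol (n := 1) φ hgi).differentiable one_ne_zero x).hasFDerivAt
      |>.hasLineDerivAt e).tendsto_slope_zero_right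
    refine (((continuous_id.inner continuous_const).tendsto _).comp hd).congr fun t => ?_
    have hqli : LocallyIntegrable (q t) volume := fun y =>
      ⟨closedBall y 1, closedBall_mem_nhds y one_pos,
        IntegrableOn.of_bound measure_closedBall_lt_top (hqm t).aestronglyMeasurable _
          (Eventually.of_forall (hqb t))⟩
    rw [hpair (q t) (Q t) hqli (hqL t).coeFn_toLp]
    simp only [comp_apply, id]
    congr 1
    rw [mol_apply, mol_apply, mol_apply,
      ← integral_sub (integrable_mol_integrand φ hgi (x + t • e)) (integrable_mol_integrand φ hgi x),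
      ← integral_smul]
    refine integral_congr_ae (Eventually.of_forall fun y => ?_)
    simp only [hq]
    rw [← smul_sub, smul_comm, add_sub_right_comm]
  have hHi : ⟪H₀, ψ⟫ = ⟪mol φ (K₁.indicator (H₀ : E → E)) x, c⟫ :=
    hpair _ H₀ (((memLp_indicator_iff_restrict hK₁.measurableSet).2
      (Lp.memLp H₀)).locallyIntegrable (by norm_num))
      (indicator_ae_eq_restrict hK₁.measurableSet).symm
  rw [← hHi]
  exact tendsto_nhds_unique (hQlim.mono_left hFle) (hweak ψ)

/-- The residual of the regularised equation. -/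
def res (κ : ℝ) (p : E) (A : E →L[ℝ] E) : ℝ := ⟪p, A p⟫ + κ * trace A

theorem abs_res_le {κ : ℝ} (hκ : 0 < κ) {p : E} {L : ℝ} (hp : ‖p‖ ≤ L) (A : E →L[ℝ] E) :
    |res κ p A| ≤ (L ^ 2 + κ * Module.finrank ℝ E) * ‖A‖ := by
  refine (abs_add_le _ _).trans ?_
  rw [add_mul, abs_mul, abs_of_pos hκ, mul_assoc]
  refine add_le_add ?_ (mul_le_mul_of_nonneg_left (abs_trace_le A) hκ.le)
  refine (abs_real_inner_le_norm _ _).trans ?_
  calc ‖p‖ * ‖A p‖ ≤ L * (‖A‖ * L) := mul_le_mul hp
        ((A.le_opNorm p).trans (mul_le_mul_of_nonneg_left hp (norm_nonneg A))) (norm_nonneg _)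
        ((norm_nonneg _).trans hp)
    _ = L ^ 2 * ‖A‖ := by ring

theorem res_sub (κ : ℝ) (p : E) (A B : E →L[ℝ] E) : res κ p A - res κ p B = res κ p (A - B) := by
  simp [res, trace, inner_sub_right, Finset.sum_sub_distrib, mul_sub, ← Finset.mul_sum]
  ring

theorem continuous_res (κ : ℝ) : Continuous fun z : E × (E →L[ℝ] E) => res κ z.1 z.2 := by
  unfold res trace
  fun_prop

theorem opNorm_le_sum_basis (A : E →L[ℝ] E) : ‖A‖ ≤ ∑ i, ‖A (stdOrthonormalBasis ℝ E i)‖ := by
  set b := stdOrthonormalBasis ℝ E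
  refine A.opNorm_le_bound (Finset.sum_nonneg fun i _ => norm_nonneg _) fun v => ?_
  conv_lhs => rw [← b.sum_repr' v, map_sum]
  refine (norm_sum_le _ _).trans ?_
  rw [Finset.sum_mul]
  refine Finset.sum_le_sum fun i _ => ?_
  rw [map_smul, norm_smul, mul_comm]
  refine mul_le_mul_of_nonneg_left ?_ (norm_nonneg _)
  simpa [b.orthonormal.1 i] using abs_real_inner_le_norm (b i) v

theorem exists_operator {Hc : Fin (Module.finrank ℝ E) → E → E}
    (hH : ∀ i, MemLp (Hc i) 2 volume) :
    ∃ H : E → E →L[ℝ] E, MemLp H 2 volume ∧ ∀ x i, H x (stdOrthonormalBasis ℝ E i) = Hc i x := by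
  set b := stdOrthonormalBasis ℝ E with hb
  let Φ : (Fin (Module.finrank ℝ E) → E) → E →L[ℝ] E := fun v =>
    ∑ i, ContinuousLinearMap.smulRightL ℝ E E (innerSL ℝ (b i)) (v i)
  have hΦc : Continuous Φ :=
    continuous_finsetSum _ fun i _ => (ContinuousLinearMap.continuous _).comp (continuous_apply i)
  have hΦb : ∀ v j, Φ v (b j) = v j := fun v j => by
    show (∑ i, ContinuousLinearMap.smulRightL ℝ E E (innerSL ℝ (b i)) (v i)) (b j) = v j
    rw [sum_apply, Finset.sum_eq_single j]
    · simp [b.orthonormal.1 j]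
    · intro i _ hi
      simp [b.orthonormal.2 hi]
    · simp
  refine ⟨fun x => Φ fun i => Hc i x, ?_, fun x j => hΦb _ j⟩
  have hm : AEStronglyMeasurable (fun x => Φ fun i => Hc i x) volume :=
    hΦc.comp_aestronglyMeasurable
      (aemeasurable_pi_lambda _ fun i => (hH i).aestronglyMeasurable.aemeasurable).aestronglyMeasurable
  have hr : MemLp (fun x => ∑ i, ‖Hc i x‖) 2 volume := memLp_finsetSum _ fun i _ => (hH i).norm
  refine hr.mono hm (Eventually.of_forall fun x => ?_)
  refine (opNorm_le_sum_basis _).trans ((le_of_eq ?_).trans (le_abs_self _))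
  simp [← hb, hΦb]

theorem integrable_sq_mol_sub (φ : ContDiffBump (0 : E)) {f : E → E} (hf : MemLp f 2 volume) :
    Integrable fun x => ‖mol φ f x - f x‖ ^ 2 := by
  have hgi : Integrable fun y => ‖f y‖ ^ 2 := hf.norm.integrable_sq
  refine ((((φ.integrable_normed.integrable_convolution
    (ContinuousLinearMap.lsmul ℝ ℝ) hgi).const_mul 2).add (hgi.const_mul 2)).mono'
    ((((continuous_mol _ (hf.locallyIntegrable (by norm_num))).aestronglyMeasurable.sub
      hf.aestronglyMeasurable).norm.pow 2)) (Eventually.of_forall fun x => ?_))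
  rw [Real.norm_eq_abs, abs_of_nonneg (sq_nonneg _)]
  have h1 := pow_le_pow_left₀ (norm_nonneg _) (norm_sub_le (mol φ f x) (f x)) 2
  have h2 := sq_norm_mol_le φ hf x
  have h3 := add_sq_le (a := ‖mol φ f x‖) (b := ‖f x‖)
  show _ ≤ 2 * mol φ (fun y => ‖f y‖ ^ 2) x + 2 * ‖f x‖ ^ 2
  linarith

/-- Weak Hessian on a compact subset. -/
theorem exists_hess (hκ : 0 < κ) (hUb : Bornology.IsBounded U) (hUo : IsOpen U)
    (hu : IsMin κ L U u) (hu' : LipschitzWith L' u) (hL : L' < L) {K : Set E} (hK : IsCompact K)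
    (hKU : K ⊆ U) :
    ∃ H : E → E →L[ℝ] E, MemLp H 2 volume ∧
      (∀ᶠ n in atTop, IntegrableOn
        (fun x => ‖fderiv ℝ (gradient (mol (bmp n) u)) x - H x‖ ^ 2) K) ∧
      Tendsto (fun n => ∫ x in K, ‖fderiv ℝ (gradient (mol (bmp n) u)) x - H x‖ ^ 2) atTop (𝓝 0) := by
  obtain ⟨r, hr, hrU⟩ := hK.exists_cthickening_subset_open hUo hKU
  have hK₁ : IsCompact (cthickening r K) := hK.cthickening
  obtain ⟨δ, hδ, C, hC⟩ := diffQuot_bound hκ hUb hUo hu hu' hL hK₁ hrU
  have hball : ∀ x ∈ K, closedBall x r ⊆ cthickening r K := fun x hx =>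
    closedBall_subset_cthickening hx r
  set b := stdOrthonormalBasis ℝ E with hbdef
  choose Hc hHm hHe using fun i => exists_weak_deriv hu' hK₁ hball hδ hC (b i)
  obtain ⟨H, hHmem, hHb'⟩ := exists_operator hHm
  have hHb : ∀ x i, H x (b i) = Hc i x := hHb'
  set N : ℝ := (Module.finrank ℝ E : ℝ) with hN
  have hmi : ∀ n i, Integrable fun x => ‖mol (bmp n) (Hc i) x - Hc i x‖ ^ 2 := fun n i =>
    integrable_sq_mol_sub _ (hHm i)
  have hpt : ∀ᶠ n in atTop, ∀ x ∈ K, ‖fderiv ℝ (gradient (mol (bmp n) u)) x - H x‖ ^ 2 ≤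
      N * ∑ i, ‖mol (bmp n) (Hc i) x - Hc i x‖ ^ 2 := by
    filter_upwards [eventually_bmp_le (E := E) hr] with n hn x hx
    refine (pow_le_pow_left₀ (norm_nonneg _) (opNorm_le_sum_basis _) 2).trans ?_
    refine (sq_sum_le_card_mul_sum_sq).trans (le_of_eq ?_)
    simp [hN, ← hbdef, hHb, hHe _ (bmp n) hn x hx]
  have hmeas : ∀ n, AEStronglyMeasurable
      (fun x => ‖fderiv ℝ (gradient (mol (bmp n) u)) x - H x‖ ^ 2) volume := fun n => by
    rw [gradient_mol_fun _ hu']
    exact ((((contDiff_mol (n := 1) (bmp n) (locallyIntegrable_gradient hu')).continuous_fderiv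
      one_ne_zero).aestronglyMeasurable.sub hHmem.aestronglyMeasurable).norm.pow 2)
  have hsum : ∀ n, Integrable fun x => N * ∑ i, ‖mol (bmp n) (Hc i) x - Hc i x‖ ^ 2 := fun n =>
    (integrable_finsetSum _ fun i _ => hmi n i).const_mul N
  have hint : ∀ᶠ n in atTop, IntegrableOn
      (fun x => ‖fderiv ℝ (gradient (mol (bmp n) u)) x - H x‖ ^ 2) K := by
    filter_upwards [hpt] with n hn
    exact (hsum n).integrableOn.mono' (hmeas n).restrict
      ((ae_restrict_iff' hK.measurableSet).2 (Eventually.of_forall fun x hx => by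
        rw [Real.norm_eq_abs, abs_of_nonneg (sq_nonneg _)]; exact hn x hx))
  refine ⟨H, hHmem, hint, ?_⟩
  have hlim : Tendsto (fun n => N * ∑ i, ∫ x, ‖mol (bmp n) (Hc i) x - Hc i x‖ ^ 2) atTop (𝓝 0) := by
    simpa using (tendsto_finsetSum _ fun i _ => tendsto_integral_sq_mol_sub (hHm i)).const_mul N
  refine squeeze_zero' (Eventually.of_forall fun n => integral_nonneg fun x => sq_nonneg _) ?_ hlim
  filter_upwards [hpt, hint] with n hn hni
  rw [← integral_finsetSum _ fun i _ => hmi n i, ← integral_const_mul]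
  refine (setIntegral_mono_on hni (hsum n).integrableOn hK.measurableSet hn).trans ?_
  exact setIntegral_le_integral (hsum n) (Eventually.of_forall fun x => by
    exact mul_nonneg (Nat.cast_nonneg _) (Finset.sum_nonneg fun i _ => sq_nonneg _))

theorem ae_tendsto_gradient_mol (hu : LipschitzWith L u) :
    ∀ᵐ x : E, Tendsto (fun n => gradient (mol (bmp n) u) x) atTop (𝓝 (gradient u x)) := by
  have hr : ∀ᶠ n in atTop,
      (bmp n : ContDiffBump (0 : E)).rOut ≤ 2 * (bmp n : ContDiffBump (0 : E)).rIn :=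
    Eventually.of_forall fun n => le_of_eq (by simp [bmp]; field_simp)
  filter_upwards [ContDiffBump.ae_convolution_tendsto_right_of_locallyIntegrable
    (μ := (volume : Measure E)) tendsto_bmp_rOut hr (locallyIntegrable_gradient hu)] with x hx
  simp only [gradient_mol _ hu]
  exact hx

theorem tendsto_integral_of_sq {S : Set E} (hS : volume S ≠ ⊤) {f : ℕ → E → ℝ}
    (hf0 : ∀ n x, 0 ≤ f n x)
    (hfi : ∀ᶠ n in atTop, IntegrableOn (fun x => f n x ^ 2) S)
    (hfm : ∀ n, AEStronglyMeasurable (f n) (volume.restrict S))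
    (h : Tendsto (fun n => ∫ x in S, f n x ^ 2) atTop (𝓝 0)) :
    Tendsto (fun n => ∫ x in S, f n x) atTop (𝓝 0) := by
  have hb : ∀ᶠ n in atTop, ∫ x in S, f n x ≤
      Real.sqrt (volume.real S * ∫ x in S, f n x ^ 2) := by
    filter_upwards [hfi] with n hn
    have hi : IntegrableOn (f n) S :=
      Integrable.mono' (hn.add (integrableOn_const (C := (1 : ℝ)) hS)) (hfm n)
        (Eventually.of_forall fun x => by
          rw [Real.norm_eq_abs, abs_of_nonneg (hf0 n x), Pi.add_apply]
          nlinarith [sq_nonneg (f n x - 1)])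
    refine Real.le_sqrt_of_sq_le ?_
    set m := ∫ x in S, f n x with hm
    set I := ∫ x in S, f n x ^ 2 with hI
    have hq : ∀ s : ℝ, 0 ≤ I * (s * s) + -2 * m * s + volume.real S := fun s => by
      have h0 : 0 ≤ ∫ x in S, (s * f n x - 1) ^ 2 := integral_nonneg fun x => sq_nonneg _
      have e : ∀ x, (s * f n x - 1) ^ 2 = s * s * f n x ^ 2 - 2 * s * f n x + 1 := fun x => by ring
      simp only [e] at h0
      rw [integral_add (f := fun x => s * s * f n x ^ 2 - 2 * s * f n x) (g := fun _ => (1 : ℝ))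
        (Integrable.sub (hn.const_mul _) (hi.const_mul _)) (integrableOn_const hS),
        integral_sub (hn.const_mul _) (hi.const_mul _), integral_const_mul, integral_const_mul,
        setIntegral_const, smul_eq_mul, mul_one] at h0
      linarith
    have := discrim_le_zero hq
    simp only [discrim] at this
    linarith
  refine squeeze_zero' (Eventually.of_forall fun n => integral_nonneg (hf0 n)) hb ?_
  have h2 := (Real.continuous_sqrt.tendsto _).comp (h.const_mul (volume.real S))
  simpa [Function.comp_def] using h2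

theorem aestronglyMeasurable_res {H : E → E →L[ℝ] E} (hH : AEStronglyMeasurable H volume)
    {p : E → E} (hp : Measurable p) :
    AEStronglyMeasurable (fun x => res κ (p x) (H x)) volume :=
  (continuous_res κ).comp_aestronglyMeasurable (hp.aestronglyMeasurable.prodMk hH)

theorem integrableOn_res (hκ : 0 < κ) {g : E → E} (hgL : ∀ x, ‖g x‖ ≤ (L : ℝ))
    (hg : Measurable g) {H : E → E →L[ℝ] E} (hHm : MemLp H 2 volume) {K : Set E} (hK : IsCompact K) :
    IntegrableOn (fun x => res κ (g x) (H x)) K := by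
  have : IntegrableOn (fun x => ‖H x‖) K :=
    (hHm.norm.locallyIntegrable (by norm_num)).integrableOn_isCompact hK
  exact (this.const_mul ((L : ℝ) ^ 2 + κ * Module.finrank ℝ E)).mono'
    (aestronglyMeasurable_res hHm.aestronglyMeasurable hg).restrict
    (Eventually.of_forall fun x => abs_res_le hκ (hgL x) _)

theorem continuous_fderiv_gradient_mol (hu : LipschitzWith L u) (n : ℕ) :
    Continuous (fderiv ℝ (gradient (mol (bmp n) u))) := by
  rw [gradient_mol_fun _ hu]
  exact (contDiff_mol (n := 1) _ (locallyIntegrable_gradient hu)).continuous_fderiv one_ne_zero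

theorem tendsto_res (hκ : 0 < κ) (hu' : LipschitzWith L' u) (hL : L' < L) {K₂ : Set E}
    {H : E → E →L[ℝ] E} (hHm : MemLp H 2 volume)
    (hint₂ : ∀ᶠ n in atTop, IntegrableOn
      (fun x => ‖fderiv ℝ (gradient (mol (bmp n) u)) x - H x‖ ^ 2) K₂)
    (hlim₂ : Tendsto (fun n => ∫ x in K₂, ‖fderiv ℝ (gradient (mol (bmp n) u)) x - H x‖ ^ 2)
      atTop (𝓝 0)) :
    (∀ᶠ n in atTop, IntegrableOn (fun x => (res κ (gradient (mol (bmp n) u) x)
      (fderiv ℝ (gradient (mol (bmp n) u)) x) - res κ (gradient u x) (H x)) ^ 2) K₂) ∧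
    Tendsto (fun n => ∫ x in K₂, (res κ (gradient (mol (bmp n) u) x)
      (fderiv ℝ (gradient (mol (bmp n) u)) x) - res κ (gradient u x) (H x)) ^ 2) atTop (𝓝 0) := by
  set A : ℕ → E → E →L[ℝ] E := fun n => fderiv ℝ (gradient (mol (bmp n) u)) with hA
  set p : ℕ → E → E := fun n => gradient (mol (bmp n) u) with hp
  set g := gradient u with hg
  set E₀ : E → ℝ := fun x => res κ (g x) (H x) with hE₀
  have hAc : ∀ n, Continuous (A n) := fun n => by
    simp only [hA, gradient_mol_fun _ hu']
    exact (contDiff_mol (n := 1) _ (locallyIntegrable_gradient hu')).continuous_fderiv one_ne_zero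
  have hpc : ∀ n, Continuous (p n) := fun n => by
    simp only [hp, gradient_mol_fun _ hu']
    exact continuous_mol _ (locallyIntegrable_gradient hu')
  have hpL : ∀ n x, ‖p n x‖ ≤ (L : ℝ) := fun n x =>
    (norm_gradient_le (lipschitz_mol _ hu') x).trans (by exact_mod_cast hL.le)
  have hgL : ∀ x, ‖g x‖ ≤ (L : ℝ) := fun x => (norm_gradient_le hu' x).trans (by exact_mod_cast hL.le)
  set Cr := (L : ℝ) ^ 2 + κ * Module.finrank ℝ E with hCr
  have hCr0 : 0 ≤ Cr := by positivity
  have hE₀b : ∀ x, |E₀ x| ≤ Cr * ‖H x‖ := fun x => abs_res_le hκ (hgL x) _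
  have hE₀m : AEStronglyMeasurable E₀ volume :=
    aestronglyMeasurable_res hHm.aestronglyMeasurable (measurable_gradient u)
  have hH2 : Integrable fun x => ‖H x‖ ^ 2 := hHm.norm.integrable_sq
  have hsmall : Tendsto (fun n => ∫ x in K₂, (res κ (p n x) (H x) - E₀ x) ^ 2) atTop (𝓝 0) := by
    have h0 : (0 : ℝ) = ∫ _x in K₂, (0 : ℝ) := by simp
    rw [h0]
    refine tendsto_integral_of_dominated_convergence (fun x => (2 * Cr) ^ 2 * ‖H x‖ ^ 2)
      (fun n => ((aestronglyMeasurable_res hHm.aestronglyMeasurable (hpc n).measurable).sub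
        hE₀m).restrict.pow 2) ((hH2.const_mul _).restrict) (fun n => ?_) ?_
    · refine Eventually.of_forall fun x => ?_
      rw [Real.norm_eq_abs, abs_of_nonneg (sq_nonneg _), ← sq_abs, ← mul_pow]
      refine pow_le_pow_left₀ (abs_nonneg _) ((abs_sub _ _).trans ?_) 2
      linarith [abs_res_le hκ (hpL n x) (H x), hE₀b x]
    · filter_upwards [ae_restrict_of_ae (ae_tendsto_gradient_mol hu')] with x hx
      have h1 := ((continuous_res (E := E) κ).tendsto (g x, H x)).comp
        (hx.prodMk_nhds (tendsto_const_nhds (x := H x)))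
      simpa [hp, hE₀, Function.comp_def] using (h1.sub_const (E₀ x)).pow 2
  have hA2 : ∀ᶠ n in atTop, IntegrableOn (fun x => (res κ (p n x) (A n x) - E₀ x) ^ 2) K₂ ∧
      ∫ x in K₂, (res κ (p n x) (A n x) - E₀ x) ^ 2 ≤
        2 * (Cr ^ 2 * ∫ x in K₂, ‖A n x - H x‖ ^ 2) +
          2 * ∫ x in K₂, (res κ (p n x) (H x) - E₀ x) ^ 2 := by
    filter_upwards [hint₂] with n hn
    have hi2 : IntegrableOn (fun x => (res κ (p n x) (H x) - E₀ x) ^ 2) K₂ :=
      ((hH2.const_mul ((2 * Cr) ^ 2)).integrableOn).mono'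
        (((aestronglyMeasurable_res hHm.aestronglyMeasurable (hpc n).measurable).sub
          hE₀m).restrict.pow 2) (Eventually.of_forall fun x => by
            rw [Real.norm_eq_abs, abs_of_nonneg (sq_nonneg _), ← sq_abs, ← mul_pow]
            refine pow_le_pow_left₀ (abs_nonneg _) ((abs_sub _ _).trans ?_) 2
            linarith [abs_res_le hκ (hpL n x) (H x), hE₀b x])
    have hb : ∀ x, (res κ (p n x) (A n x) - E₀ x) ^ 2 ≤
        2 * (Cr ^ 2 * ‖A n x - H x‖ ^ 2) + 2 * (res κ (p n x) (H x) - E₀ x) ^ 2 := fun x => by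
      have h1 : (res κ (p n x) (A n x) - res κ (p n x) (H x)) ^ 2 ≤
          Cr ^ 2 * ‖A n x - H x‖ ^ 2 := by
        rw [res_sub, ← mul_pow, ← sq_abs]
        exact pow_le_pow_left₀ (abs_nonneg _) (abs_res_le hκ (hpL n x) _) 2
      have h2 := add_sq_le (a := res κ (p n x) (A n x) - res κ (p n x) (H x))
        (b := res κ (p n x) (H x) - E₀ x)
      rw [sub_add_sub_cancel] at h2
      linarith
    have hi1 : IntegrableOn (fun x => 2 * (Cr ^ 2 * ‖A n x - H x‖ ^ 2)) K₂ :=
      (hn.const_mul _).const_mul _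
    have hi : IntegrableOn (fun x => (res κ (p n x) (A n x) - E₀ x) ^ 2) K₂ :=
      (hi1.add (hi2.const_mul 2)).mono'
        ((((continuous_res κ).comp ((hpc n).prodMk (hAc n))).aestronglyMeasurable.sub
          hE₀m).restrict.pow 2) (Eventually.of_forall fun x => by
            rw [Real.norm_eq_abs, abs_of_nonneg (sq_nonneg _)]; exact hb x)
    refine ⟨hi, (integral_mono hi (hi1.add (hi2.const_mul 2)) hb).trans (le_of_eq ?_)⟩
    simp only [Pi.add_apply]
    rw [integral_add hi1 (hi2.const_mul 2), integral_const_mul, integral_const_mul, integral_const_mul]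
  have hres : Tendsto (fun n => ∫ x in K₂, (res κ (p n x) (A n x) - E₀ x) ^ 2) atTop (𝓝 0) := by
    refine squeeze_zero' (Eventually.of_forall fun n => integral_nonneg fun x => sq_nonneg _)
      (hA2.mono fun n hn => hn.2) ?_
    simpa using ((hlim₂.const_mul (Cr ^ 2)).const_mul 2).add (hsmall.const_mul 2)
  exact ⟨hA2.mono fun n hn => hn.1, hres⟩

theorem residual_weak_zero (hκ : 0 < κ) (hUb : Bornology.IsBounded U) (hUo : IsOpen U)
    (hu : IsMin κ L U u) (hu' : LipschitzWith L' u) (hL : L' < L) {K₂ : Set E} (hK₂ : IsCompact K₂)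
    (hrU : K₂ ⊆ U) {H : E → E →L[ℝ] E} (hHm : MemLp H 2 volume)
    (hres1 : Tendsto (fun n => ∫ x in K₂, |res κ (gradient (mol (bmp n) u) x)
      (fderiv ℝ (gradient (mol (bmp n) u)) x) - res κ (gradient u x) (H x)|) atTop (𝓝 0))
    {ζ : E → ℝ} (hζ : ContDiff ℝ ∞ ζ) (hζc : HasCompactSupport ζ) {W : Set E} (hWK : W ⊆ K₂)
    (hζW : tsupport ζ ⊆ W) :
    ∫ x in K₂, dens κ L (gradient u x) * res κ (gradient u x) (H x) * ζ x = 0 := by
  set A : ℕ → E → E →L[ℝ] E := fun n => fderiv ℝ (gradient (mol (bmp n) u)) with hA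
  set p : ℕ → E → E := fun n => gradient (mol (bmp n) u) with hp
  set g := gradient u with hg
  set E₀ : E → ℝ := fun x => res κ (g x) (H x) with hE₀
  set f : E → ℝ := fun x => dens κ L (g x) * E₀ x with hf
  show ∫ x in K₂, f x * ζ x = 0
  have hAc : ∀ n, Continuous (A n) := fun n => by
    simp only [hA, gradient_mol_fun _ hu']
    exact (contDiff_mol (n := 1) _ (locallyIntegrable_gradient hu')).continuous_fderiv one_ne_zero
  have hpc : ∀ n, Continuous (p n) := fun n => by
    simp only [hp, gradient_mol_fun _ hu']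
    exact continuous_mol _ (locallyIntegrable_gradient hu')
  have hpL : ∀ n x, ‖p n x‖ ≤ (L : ℝ) := fun n x =>
    (norm_gradient_le (lipschitz_mol _ hu') x).trans (by exact_mod_cast hL.le)
  have hgL : ∀ x, ‖g x‖ ≤ (L : ℝ) := fun x =>
    (norm_gradient_le hu' x).trans (by exact_mod_cast hL.le)
  have hE₀i : IntegrableOn E₀ K₂ := integrableOn_res hκ hgL (measurable_gradient u) hHm hK₂
  have hE₀m : AEStronglyMeasurable E₀ volume :=
    aestronglyMeasurable_res hHm.aestronglyMeasurable (measurable_gradient u)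
  obtain ⟨M, hM⟩ := ContDiff.lipschitzWith_of_hasCompactSupport hζc hζ (by simp)
  have hz0 : ∀ x ∉ W, ζ x = 0 := fun x hx => image_eq_zero_of_notMem_tsupport fun h => hx (hζW h)
  have hzU : ∀ x ∉ U, ζ x = 0 := fun x hx => hz0 x fun h => hx (hrU (hWK h))
  obtain ⟨B, hB⟩ := hζc.exists_bound_of_continuous hζ.continuous
  have hflux : Tendsto (fun n => ∫ x in U, ⟪dens κ L (p n x) • p n x, gradient ζ x⟫) atTop
      (𝓝 0) := by
    have h0 := hu.euler_lagrange hκ hUb hu' hL hM hzU
    rw [← h0]
    refine tendsto_integral_of_dominated_convergence (fun _ => (L : ℝ) * M)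
      (fun n => ((((continuous_dens κ L).comp (hpc n)).smul (hpc n)).measurable.inner
        (measurable_gradient ζ)).aestronglyMeasurable)
      (integrableOn_const hUb.measure_lt_top.ne) (fun n => Eventually.of_forall fun x => ?_) ?_
    · refine (norm_inner_le_norm _ _).trans (mul_le_mul ?_ (norm_gradient_le hM x) (norm_nonneg _)
        L.coe_nonneg)
      rw [norm_smul, Real.norm_eq_abs, abs_of_pos (dens_pos _ _ _)]
      calc dens κ L (p n x) * ‖p n x‖ ≤ 1 * (L : ℝ) :=
            mul_le_mul (dens_le_one hκ (hpL n x)) (hpL n x) (norm_nonneg _) zero_le_one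
        _ = L := one_mul _
    · filter_upwards [ae_restrict_of_ae (ae_tendsto_gradient_mol hu')] with x hx
      have h1 := ((((continuous_dens (E := E) κ L).smul continuous_id).inner (𝕜 := ℝ)
        (continuous_const (y := gradient ζ x))).tendsto (g x)).comp hx
      simpa [real_inner_smul_left, Function.comp_def] using h1
  have hdiv : ∀ n, (∫ x in U, ⟪dens κ L (p n x) • p n x, gradient ζ x⟫) =
      -∫ x in K₂, dens κ L (p n x) * res κ (p n x) (A n x) / κ * ζ x := fun n => by
    have hG : ContDiff ℝ 1 (p n) := by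
      simp only [hp, gradient_mol_fun _ hu']
      exact contDiff_mol _ (locallyIntegrable_gradient hu')
    have hG' : ContDiff ℝ 1 fun x => dens κ L (p n x) • p n x :=
      (Real.contDiff_exp.comp (((hG.norm_sq ℝ).sub contDiff_const).div_const _)).smul hG
    rw [integral_inner_gradient_eq hUb hUo hM hzU hG', neg_inj,
      setIntegral_eq_of_subset_of_forall_diff_eq_zero hUo.measurableSet hrU
        fun x hx => by rw [hz0 x fun h => hx.2 (hWK h), mul_zero]]
    refine integral_congr_ae (Eventually.of_forall fun x => ?_)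
    show trace (fderiv ℝ (fun x => dens κ L (p n x) • p n x) x) * ζ x = _
    rw [trace_flux (hG.differentiable one_ne_zero x).hasFDerivAt]
    simp only [res, hA, hp]
    field_simp
    ring
  have hconv : Tendsto (fun n => ∫ x in K₂, dens κ L (p n x) * res κ (p n x) (A n x) / κ * ζ x)
      atTop (𝓝 (∫ x in K₂, f x / κ * ζ x)) := by
    have hdm : ∀ n, AEStronglyMeasurable (fun x => dens κ L (p n x)) (volume.restrict K₂) :=
      fun n => ((continuous_dens κ L).comp (hpc n)).aestronglyMeasurable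
    have h1 : Tendsto (fun n => ∫ x in K₂, dens κ L (p n x) * E₀ x / κ * ζ x) atTop
        (𝓝 (∫ x in K₂, f x / κ * ζ x)) := by
      refine tendsto_integral_of_dominated_convergence (fun x => |E₀ x| / κ * B)
        (fun n => (((hdm n).mul hE₀m.restrict).mul_const κ⁻¹).mul
          hζ.continuous.aestronglyMeasurable)
        ((hE₀i.norm.div_const κ).mul_const B) (fun n => Eventually.of_forall fun x => ?_) ?_
      · rw [norm_mul, norm_div, norm_mul, Real.norm_eq_abs, Real.norm_eq_abs, Real.norm_eq_abs,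
          abs_of_pos (dens_pos _ _ _), abs_of_pos hκ]
        refine mul_le_mul (div_le_div_of_nonneg_right ?_ hκ.le) (hB x) (norm_nonneg _)
          (by positivity)
        exact mul_le_of_le_one_left (abs_nonneg _) (dens_le_one hκ (hpL n x))
      · filter_upwards [ae_restrict_of_ae (ae_tendsto_gradient_mol hu')] with x hx
        exact (((((continuous_dens κ L).tendsto _).comp hx).mul_const _).div_const _).mul_const _
    have h2 : Tendsto (fun n => (∫ x in K₂, dens κ L (p n x) * res κ (p n x) (A n x) / κ * ζ x) -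
        ∫ x in K₂, dens κ L (p n x) * E₀ x / κ * ζ x) atTop (𝓝 0) := by
      refine squeeze_zero_norm' ?_ (by simpa using hres1.const_mul (B / κ))
      refine Eventually.of_forall fun n => ?_
      have hab : ∀ x, |dens κ L (p n x)| ≤ 1 := fun x => by
        rw [abs_of_pos (dens_pos _ _ _)]; exact dens_le_one hκ (hpL n x)
      have i1 : IntegrableOn (fun x => dens κ L (p n x) * res κ (p n x) (A n x) / κ * ζ x) K₂ :=
        (((((continuous_dens κ L).comp (hpc n)).mul
          ((continuous_res κ).comp ((hpc n).prodMk (hAc n)))).div_const κ).mul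
            hζ.continuous).continuousOn.integrableOn_compact hK₂
      have i2 : IntegrableOn (fun x => dens κ L (p n x) * E₀ x / κ * ζ x) K₂ :=
        (((hE₀i.bdd_mul (hdm n) (c := 1) (Eventually.of_forall hab)).div_const κ).mul_bdd
          hζ.continuous.aestronglyMeasurable (c := B) (Eventually.of_forall hB))
      rw [← integral_sub i1 i2, ← integral_const_mul]
      have i3 : IntegrableOn (fun x => |res κ (p n x) (A n x) - E₀ x|) K₂ :=
        ((((continuous_res κ).comp ((hpc n).prodMk (hAc n))).continuousOn.integrableOn_compact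
          hK₂).sub hE₀i).norm
      refine norm_integral_le_of_norm_le (i3.const_mul _) (Eventually.of_forall fun x => ?_)
      rw [show dens κ L (p n x) * res κ (p n x) (A n x) / κ * ζ x -
        dens κ L (p n x) * E₀ x / κ * ζ x =
        dens κ L (p n x) * ((res κ (p n x) (A n x) - E₀ x) * (ζ x / κ)) by ring,
        Real.norm_eq_abs, abs_mul, abs_mul, abs_div, abs_of_pos hκ]
      calc |dens κ L (p n x)| * (|res κ (p n x) (A n x) - E₀ x| * (|ζ x| / κ))
          ≤ 1 * (|res κ (p n x) (A n x) - E₀ x| * (B / κ)) := by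
            refine mul_le_mul (hab x) (mul_le_mul_of_nonneg_left
              (div_le_div_of_nonneg_right (hB x) hκ.le) (abs_nonneg _)) ?_ zero_le_one
            exact mul_nonneg (abs_nonneg _) (div_nonneg (abs_nonneg _) hκ.le)
        _ = _ := by ring
    simpa using h2.add h1
  have hlim := hflux
  simp only [hdiv] at hlim
  have h3 := tendsto_nhds_unique hlim hconv.neg
  have h4 : ∫ x in K₂, f x / κ * ζ x = (∫ x in K₂, f x * ζ x) / κ := by
    rw [← integral_div]; congr 1; ext x; ring
  rw [h4] at h3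
  have h5 : (∫ x in K₂, f x * ζ x) / κ = 0 := by linarith
  exact (div_eq_zero_iff.1 h5).resolve_right hκ.ne'

/-- Strong convergence of Hessians and residuals of the mollifications. -/
theorem exists_hessian (hκ : 0 < κ) (hUb : Bornology.IsBounded U) (hUo : IsOpen U)
    (hu : IsMin κ L U u) (hu' : LipschitzWith L' u) (hL : L' < L) {K : Set E} (hK : IsCompact K)
    (hKU : K ⊆ U) :
    ∃ H : E → E →L[ℝ] E, MemLp H 2 volume ∧
      (∀ᵐ x, x ∈ K → ⟪gradient u x, H x (gradient u x)⟫ + κ * trace (H x) = 0) ∧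
      Tendsto (fun n => ∫ x in K, ‖fderiv ℝ (gradient (mol (bmp n) u)) x - H x‖ ^ 2) atTop (𝓝 0) ∧
      Tendsto (fun n => ∫ x in K, res κ (gradient (mol (bmp n) u) x)
        (fderiv ℝ (gradient (mol (bmp n) u)) x) ^ 2) atTop (𝓝 0) := by
  obtain ⟨r, hr, hrU⟩ := hK.exists_cthickening_subset_open hUo hKU
  set K₂ := cthickening r K with hK₂def
  have hK₂ : IsCompact K₂ := hK.cthickening
  obtain ⟨H, hHm, hint₂, hlim₂⟩ := exists_hess hκ hUb hUo hu hu' hL hK₂ hrU
  have hKK : K ⊆ K₂ := self_subset_cthickening _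
  obtain ⟨hi2, hres⟩ := tendsto_res hκ hu' hL hHm hint₂ hlim₂
  set g := gradient u with hg
  set E₀ : E → ℝ := fun x => res κ (g x) (H x) with hE₀
  have hgL : ∀ x, ‖g x‖ ≤ (L : ℝ) := fun x =>
    (norm_gradient_le hu' x).trans (by exact_mod_cast hL.le)
  have hE₀m : AEStronglyMeasurable E₀ volume :=
    aestronglyMeasurable_res hHm.aestronglyMeasurable (measurable_gradient u)
  have hE₀i : IntegrableOn E₀ K₂ := integrableOn_res hκ hgL (measurable_gradient u) hHm hK₂
  have hpc : ∀ n, Continuous (gradient (mol (bmp n) u)) := fun n => by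
    rw [gradient_mol_fun _ hu']
    exact continuous_mol _ (locallyIntegrable_gradient hu')
  have hres1 := tendsto_integral_of_sq hK₂.measure_lt_top.ne (f := fun n x =>
      |res κ (gradient (mol (bmp n) u) x) (fderiv ℝ (gradient (mol (bmp n) u)) x) - E₀ x|)
    (fun _ _ => abs_nonneg _) (hi2.mono fun n hn => by simpa [sq_abs] using hn)
    (fun n => (((aestronglyMeasurable_res
      (continuous_fderiv_gradient_mol hu' n).aestronglyMeasurable (hpc n).measurable).sub
        hE₀m).restrict.norm)) (by simpa [sq_abs] using hres)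
  set W := thickening r K with hW
  have hWK : W ⊆ K₂ := thickening_subset_cthickening _ _
  set f : E → ℝ := fun x => dens κ L (g x) * E₀ x with hf
  have hfi : IntegrableOn f K₂ := by
    refine hE₀i.norm.mono' ((((continuous_dens κ L).measurable.comp
      (measurable_gradient u)).aestronglyMeasurable).restrict.mul hE₀m.restrict)
      (Eventually.of_forall fun x => ?_)
    rw [hf, norm_mul, Real.norm_eq_abs, abs_of_pos (dens_pos _ _ _)]
    exact mul_le_of_le_one_left (norm_nonneg _) (dens_le_one hκ (hgL x))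
  have hae : ∀ᵐ x, x ∈ W → K₂.indicator f x = 0 := by
    refine isOpen_thickening.ae_eq_zero_of_integral_contDiff_smul_eq_zero
      (((integrable_indicator_iff hK₂.measurableSet).2 hfi).locallyIntegrable.locallyIntegrableOn _)
      fun ζ hζ hζc hζW => ?_
    rw [← residual_weak_zero hκ hUb hUo hu hu' hL hK₂ hrU hHm hres1 hζ hζc hWK hζW,
      ← integral_indicator hK₂.measurableSet]
    refine integral_congr_ae (Eventually.of_forall fun x => ?_)
    by_cases hx : x ∈ K₂ <;> simp [hx, hf, hE₀, ← hg, mul_comm]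
  have hE0 : ∀ᵐ x, x ∈ K → E₀ x = 0 := by
    filter_upwards [hae] with x hx hxK
    have := hx (self_subset_thickening hr K hxK)
    rw [indicator_of_mem (hKK hxK)] at this
    exact (mul_eq_zero.1 this).resolve_left (dens_pos _ _ _).ne'
  refine ⟨H, hHm, hE0, ?_, ?_⟩
  · refine squeeze_zero' (Eventually.of_forall fun n => integral_nonneg fun x => sq_nonneg _) ?_ hlim₂
    filter_upwards [hint₂] with n hn
    exact setIntegral_mono_set hn (Eventually.of_forall fun x => sq_nonneg _) hKK.eventuallyLE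
  · refine squeeze_zero' (Eventually.of_forall fun n => integral_nonneg fun x => sq_nonneg _) ?_ hres
    filter_upwards [hi2] with n hn
    refine le_trans (le_of_eq ?_) (setIntegral_mono_set hn
      (Eventually.of_forall fun x => sq_nonneg _) hKK.eventuallyLE)
    refine setIntegral_congr_ae hK.measurableSet ?_
    filter_upwards [hE0] with x hx hxK
    have h0 : res κ (g x) (H x) = 0 := hx hxK
    rw [h0, sub_zero]

end Vale.Agent.P080C1.Exist
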