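import Vale.Agent.P080C1.Exist.Grad

/-!
Minimisers of `∫ exp ((|Dw|² - L²) / 2κ)` among `L`-Lipschitz functions with prescribed values
off a set: uniqueness, comparison, existence, and the Euler-Lagrange equation.
-/

noncomputable section

open MeasureTheory Filter Topology Metric Set
open scoped NNReal RealInnerProductSpace Gradient

namespace Vale.Agent.P080C1.Exist

set_option linter.unusedSectionVars false

variable {E : Type*} [NormedAddCommGroup E] [InnerProductSpace ℝ E] [FiniteDimensional ℝ E]

/-- The integrand. -/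
def dens (κ L : ℝ) (p : E) : ℝ := Real.exp ((‖p‖ ^ 2 - L ^ 2) / (2 * κ))

theorem dens_pos (κ L : ℝ) (p : E) : 0 < dens κ L p := Real.exp_pos _

theorem continuous_dens (κ L : ℝ) : Continuous (dens κ L : E → ℝ) := by unfold dens; fun_prop

theorem dens_le_one {κ L : ℝ} (hκ : 0 < κ) {p : E} (hp : ‖p‖ ≤ L) : dens κ L p ≤ 1 := by
  refine Real.exp_le_one_iff.2 (div_nonpos_of_nonpos_of_nonneg ?_ (by positivity))
  nlinarith [norm_nonneg p]

/-- Tangent plane inequality. -/
theorem dens_sub_ge {κ L : ℝ} (hκ : 0 < κ) (a b : E) :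
    dens κ L a * ⟪a, b - a⟫ / κ ≤ dens κ L b - dens κ L a := by
  have h1 : (1 + (‖b‖ ^ 2 - ‖a‖ ^ 2) / (2 * κ)) * dens κ L a ≤ dens κ L b := by
    have := Real.add_one_le_exp ((‖b‖ ^ 2 - ‖a‖ ^ 2) / (2 * κ))
    calc _ ≤ Real.exp ((‖b‖ ^ 2 - ‖a‖ ^ 2) / (2 * κ)) * dens κ L a :=
          mul_le_mul_of_nonneg_right (by linarith) (dens_pos κ L a).le
      _ = dens κ L b := by
          rw [dens, dens, ← Real.exp_add]; congr 1; ring
  have h2 : ⟪a, b - a⟫ / κ ≤ (‖b‖ ^ 2 - ‖a‖ ^ 2) / (2 * κ) := by
    rw [div_le_div_iff₀ hκ (by positivity)]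
    have h3 := norm_sub_sq_real b a
    rw [inner_sub_right, real_inner_self_eq_norm_sq, real_inner_comm]
    have : 0 ≤ ‖b - a‖ ^ 2 := by positivity
    nlinarith
  have := mul_le_mul_of_nonneg_left h2 (dens_pos κ L a).le
  rw [mul_div_assoc]
  linarith

/-- Midpoint strong convexity on the ball of radius `L`. -/
theorem dens_mid {κ L : ℝ} (hκ : 0 < κ) {a b : E} (ha : ‖a‖ ≤ L) (hb : ‖b‖ ≤ L) :
    dens κ L ((1 / 2 : ℝ) • (a + b)) +
        (Real.exp (-(L ^ 2) / (2 * κ)) / (8 * κ * (1 + L ^ 2 / (2 * κ)))) * ‖a - b‖ ^ 2 ≤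
      (dens κ L a + dens κ L b) / 2 := by
  set δ := ‖a - b‖ ^ 2 / (8 * κ) with hδ
  set A := (‖a‖ ^ 2 - L ^ 2) / (2 * κ) with hA
  set B := (‖b‖ ^ 2 - L ^ 2) / (2 * κ) with hB
  have hmid : dens κ L ((1 / 2 : ℝ) • (a + b)) = Real.exp ((A + B) / 2) * Real.exp (-δ) := by
    rw [dens, ← Real.exp_add]
    congr 1
    rw [norm_smul, mul_pow, hA, hB, hδ, norm_add_sq_real, norm_sub_sq_real]
    norm_num
    field_simp
    ring
  have hδ0 : 0 ≤ δ := by positivity
  have hδ1 : δ ≤ L ^ 2 / (2 * κ) := by
    rw [hδ, div_le_div_iff₀ (by positivity) (by positivity)]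
    have h2 : ‖a - b‖ ≤ 2 * L := (norm_sub_le a b).trans (by linarith)
    have h3 : ‖a - b‖ ^ 2 ≤ (2 * L) ^ 2 := pow_le_pow_left₀ (norm_nonneg _) h2 2
    nlinarith
  set G := Real.exp ((A + B) / 2) with hG
  have hGlow : Real.exp (-(L ^ 2) / (2 * κ)) ≤ G := by
    refine Real.exp_le_exp.2 ?_
    rw [hA, hB, ← add_div, div_div, div_le_div_iff₀ (by positivity) (by positivity)]
    have : 0 ≤ ‖a‖ ^ 2 + ‖b‖ ^ 2 := by positivity
    nlinarith
  have hGhi : G ≤ (dens κ L a + dens κ L b) / 2 := by
    have h := convexOn_exp.2 (mem_univ A) (mem_univ B) (by norm_num : (0:ℝ) ≤ 1/2)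
      (by norm_num : (0:ℝ) ≤ 1/2) (by norm_num)
    simp only [smul_eq_mul] at h
    rw [hG, show (A + B) / 2 = 1 / 2 * A + 1 / 2 * B by ring]
    simpa [dens, hA, hB, div_eq_inv_mul, mul_add] using h
  have hexp : Real.exp (-δ) ≤ 1 - δ / (1 + δ) := by
    rw [Real.exp_neg]
    have h := Real.add_one_le_exp δ
    calc (Real.exp δ)⁻¹ ≤ (1 + δ)⁻¹ := inv_anti₀ (by positivity) (by linarith)
      _ = 1 - δ / (1 + δ) := by field_simp; ring
  rw [hmid]
  have h4 : Real.exp (-(L ^ 2) / (2 * κ)) / (8 * κ * (1 + L ^ 2 / (2 * κ))) * ‖a - b‖ ^ 2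
      ≤ G * (δ / (1 + δ)) := by
    calc _ = Real.exp (-(L ^ 2) / (2 * κ)) * (δ / (1 + L ^ 2 / (2 * κ))) := by
            rw [hδ]; field_simp
      _ ≤ G * (δ / (1 + δ)) := by
          refine mul_le_mul hGlow ?_ (by positivity) (Real.exp_pos _).le
          exact div_le_div_of_nonneg_left hδ0 (by positivity) (by linarith)
  have h5 := mul_le_mul_of_nonneg_left hexp (Real.exp_pos ((A + B) / 2)).le
  linarith

variable [MeasurableSpace E] [BorelSpace E]

/-- The energy on `U`. -/
def energy (κ L : ℝ) (U : Set E) (w : E → ℝ) : ℝ := ∫ x in U, dens κ L (gradient w x)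

/-- `u` minimises the energy on `U` among `L`-Lipschitz functions equal to it off `U`. -/
def IsMin (κ : ℝ) (L : ℝ≥0) (U : Set E) (u : E → ℝ) : Prop :=
  LipschitzWith L u ∧ ∀ w, LipschitzWith L w → (∀ x ∉ U, w x = u x) →
    energy κ L U u ≤ energy κ L U w

variable {κ : ℝ} {L : ℝ≥0} {U : Set E} {u v w : E → ℝ}

theorem integrableOn_dens (hκ : 0 < κ) (hU : Bornology.IsBounded U) (hw : LipschitzWith L w) :
    IntegrableOn (fun x => dens κ L (gradient w x)) U := by
  refine IntegrableOn.of_bound hU.measure_lt_top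
    ((continuous_dens κ L).measurable.comp (measurable_gradient w)).aestronglyMeasurable 1 ?_
  refine Eventually.of_forall fun x => ?_
  rw [Real.norm_eq_abs, abs_of_pos (dens_pos _ _ _)]
  exact dens_le_one hκ (norm_gradient_le hw x)

theorem energy_lattice (hκ : 0 < κ) (hU : Bornology.IsBounded U) (hu : LipschitzWith L u)
    (hv : LipschitzWith L v) :
    energy κ L U (fun x => min (u x) (v x)) + energy κ L U (fun x => max (u x) (v x)) =
      energy κ L U u + energy κ L U v := by
  have hmin : LipschitzWith L fun x => min (u x) (v x) := by simpa using hu.min hv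
  have hmax : LipschitzWith L fun x => max (u x) (v x) := by simpa using hu.max hv
  simp only [energy]
  rw [← integral_add (integrableOn_dens hκ hU hmin) (integrableOn_dens hκ hU hmax),
    ← integral_add (integrableOn_dens hκ hU hu) (integrableOn_dens hκ hU hv)]
  refine integral_congr_ae (ae_restrict_of_ae ?_)
  filter_upwards [ae_gradient_lattice hu hv] with x hx
  rcases hx with ⟨h1, h2⟩ | ⟨h1, h2⟩ <;> simp [h1, h2, add_comm]

theorem lipschitzWith_mid (hu : LipschitzWith L u) (hv : LipschitzWith L v) :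
    LipschitzWith L fun x => (u x + v x) / 2 :=
  LipschitzWith.of_dist_le_mul fun x y => by
    have h1 := hu.dist_le_mul x y
    have h2 := hv.dist_le_mul x y
    rw [Real.dist_eq] at h1 h2 ⊢
    rw [show (u x + v x) / 2 - (u y + v y) / 2 = ((u x - u y) + (v x - v y)) / 2 by ring,
      abs_div, abs_two]
    linarith [abs_add_le (u x - u y) (v x - v y)]

theorem ae_gradient_mid (hu : LipschitzWith L u) (hv : LipschitzWith L v) :
    ∀ᵐ x : E, gradient (fun y => (u y + v y) / 2) x =
      (1 / 2 : ℝ) • (gradient u x + gradient v x) := by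
  filter_upwards [hu.ae_differentiableAt, hv.ae_differentiableAt] with x h1 h2
  have h := (h1.hasFDerivAt.add h2.hasFDerivAt).const_mul (1 / 2 : ℝ)
  have h' : HasFDerivAt (fun y => (u y + v y) / 2)
      ((1 / 2 : ℝ) • (fderiv ℝ u x + fderiv ℝ v x)) x := by
    simpa [div_eq_inv_mul] using h
  simp [gradient, h'.fderiv]

theorem energy_mid (hκ : 0 < κ) (hU : Bornology.IsBounded U) (hu : LipschitzWith L u)
    (hv : LipschitzWith L v) :
    energy κ L U (fun x => (u x + v x) / 2) +
        (Real.exp (-((L : ℝ) ^ 2) / (2 * κ)) / (8 * κ * (1 + (L : ℝ) ^ 2 / (2 * κ)))) *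
          ∫ x in U, ‖gradient u x - gradient v x‖ ^ 2 ≤
      (energy κ L U u + energy κ L U v) / 2 := by
  have hi : IntegrableOn (fun x => ‖gradient u x - gradient v x‖ ^ 2) U := by
    refine IntegrableOn.of_bound hU.measure_lt_top
      (((measurable_gradient u).sub (measurable_gradient v)).norm.pow_const 2).aestronglyMeasurable
      (((L : ℝ) + L) ^ 2) (Eventually.of_forall fun x => ?_)
    rw [Real.norm_eq_abs, abs_of_nonneg (sq_nonneg _)]
    exact pow_le_pow_left₀ (norm_nonneg _)
      ((norm_sub_le _ _).trans (add_le_add (norm_gradient_le hu x) (norm_gradient_le hv x))) 2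
  simp only [energy]
  rw [← integral_const_mul, ← integral_add (integrableOn_dens hκ hU (lipschitzWith_mid hu hv))
      (hi.const_mul _), ← integral_add (integrableOn_dens hκ hU hu) (integrableOn_dens hκ hU hv),
    ← integral_div]
  refine integral_mono_ae
    ((integrableOn_dens hκ hU (lipschitzWith_mid hu hv)).add (hi.const_mul _))
    (((integrableOn_dens hκ hU hu).add (integrableOn_dens hκ hU hv)).div_const 2)
    (ae_restrict_of_ae ?_)
  filter_upwards [ae_gradient_mid hu hv] with x hx
  simp only [hx]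
  exact dens_mid hκ (norm_gradient_le hu x) (norm_gradient_le hv x)

/-- If the gradient difference is `L²`-small, the functions are uniformly close. -/
theorem forall_exists_close [Nontrivial E] (hU : Bornology.IsBounded U) {ε : ℝ} (hε : 0 < ε) :
    ∃ η > 0, ∀ u v : E → ℝ, LipschitzWith L u → LipschitzWith L v → (∀ x ∉ U, u x = v x) →
      ∫ x in U, ‖gradient u x - gradient v x‖ ^ 2 ≤ η → ∀ x, |u x - v x| ≤ ε := by
  obtain ⟨R, hR⟩ := hU.closure.subset_closedBall (0 : E)
  set R' := max R 1
  have hR' : closure U ⊆ closedBall 0 R' := hR.trans (closedBall_subset_closedBall (le_max_left ..))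
  set θ := ε / 2 * volume.real (ball (0 : E) (ε / (2 * ((L + L : ℝ≥0) + 1)))) with hθ
  have hθ0 : 0 < θ := by
    refine mul_pos (by positivity) ?_
    exact ENNReal.toReal_pos (measure_ball_pos _ _ (by positivity)).ne' measure_ball_lt_top.ne
  set m := volume.real (closure U) + 1 with hm
  have hm0 : 0 < m := by positivity
  set s := θ / (4 * R' * m) with hs
  have hs0 : 0 < s := by positivity
  refine ⟨s ^ 2, by positivity, fun u v hu hv h0 hg x => ?_⟩
  have hφ : LipschitzWith (L + L) fun y => u y - v y := hu.sub hv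
  have hz : ∀ y ∉ U, u y - v y = 0 := fun y hy => sub_eq_zero.2 (h0 y hy)
  have hint : Integrable fun y => u y - v y :=
    hφ.continuous.integrable_of_hasCompactSupport (hasCompactSupport_of_eq_zero_off hU hz)
  refine abs_le_of_integral_lt hφ hint hε ?_ x
  have h1 := integral_abs_le hR' hU hφ hz
  have hgd : ∀ᵐ y : E, gradient (fun y => u y - v y) y = gradient u y - gradient v y := by
    filter_upwards [hu.ae_differentiableAt, hv.ae_differentiableAt] with y a b
    simp [gradient, fderiv_fun_sub a b]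
  -- outside `U` the gradient vanishes almost everywhere
  have h2 : ∫ y in closedBall (0 : E) R', ‖gradient (fun y => u y - v y) y‖ ≤ s * m + s ^ 2 / s := by
    have hind : ∀ᵐ y : E, y ∉ U → gradient (fun y => u y - v y) y = 0 := by
      filter_upwards [hφ.ae_differentiableAt,
        (lipschitzWith_one_norm.comp hφ).ae_differentiableAt] with y a b hy
      have hmin : IsLocalMin (fun y => ‖u y - v y‖) y :=
        Eventually.of_forall fun z => by simp [hz y hy]
      have hb : HasFDerivAt (fun y => ‖u y - v y‖) (0 : E →L[ℝ] ℝ) y := by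
        have := hmin.fderiv_eq_zero; rw [← this]; exact b.hasFDerivAt
      have hd : HasFDerivAt (fun y => u y - v y) (0 : E →L[ℝ] ℝ) y := by
        rw [hasFDerivAt_iff_isLittleO_nhds_zero] at hb ⊢
        simp only [hz y hy, norm_zero, zero_apply, sub_zero] at hb ⊢
        exact hb.of_norm_left
      simp [gradient, hd.fderiv]
    have e1 : ∫ y in closedBall (0 : E) R', ‖gradient (fun y => u y - v y) y‖ =
        ∫ y in closedBall (0 : E) R' ∩ U, ‖gradient (fun y => u y - v y) y‖ := by
      refine setIntegral_eq_of_subset_of_ae_diff_eq_zero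
        measurableSet_closedBall.nullMeasurableSet inter_subset_left ?_
      filter_upwards [hind] with y hy hyd
      rw [hy fun h => hyd.2 ⟨hyd.1, h⟩, norm_zero]
    have hUB : closedBall (0 : E) R' ∩ U = U :=
      inter_eq_right.2 ((subset_closure).trans hR')
    rw [e1, hUB]
    have hb : ∀ᵐ y ∂volume.restrict U, ‖gradient (fun y => u y - v y) y‖ ≤
        s + ‖gradient u y - gradient v y‖ ^ 2 / s := by
      filter_upwards [ae_restrict_of_ae hgd] with y hy
      rw [hy]
      set t := ‖gradient u y - gradient v y‖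
      rcases le_total t s with h | h
      · have : 0 ≤ t ^ 2 / s := by positivity
        linarith
      · have : t ≤ t ^ 2 / s := by rw [le_div_iff₀ hs0]; nlinarith
        linarith
    have hsq : IntegrableOn (fun x => ‖gradient u x - gradient v x‖ ^ 2) U := by
      refine IntegrableOn.of_bound hU.measure_lt_top
        (((measurable_gradient u).sub (measurable_gradient v)).norm.pow_const 2).aestronglyMeasurable
        (((L : ℝ) + L) ^ 2) (Eventually.of_forall fun x => ?_)
      rw [Real.norm_eq_abs, abs_of_nonneg (sq_nonneg _)]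
      exact pow_le_pow_left₀ (norm_nonneg _)
        ((norm_sub_le _ _).trans (add_le_add (norm_gradient_le hu x) (norm_gradient_le hv x))) 2
    have hc : IntegrableOn (fun _ : E => s) U := integrableOn_const hU.measure_lt_top.ne
    refine (integral_mono_of_nonneg (Eventually.of_forall fun y => norm_nonneg _)
      (hc.add (hsq.div_const s)) hb).trans ?_
    show ∫ y in U, (s + ‖gradient u y - gradient v y‖ ^ 2 / s) ≤ s * m + s ^ 2 / s
    rw [integral_add hc (hsq.div_const s), setIntegral_const, integral_div, smul_eq_mul]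
    refine add_le_add ?_ (div_le_div_of_nonneg_right hg hs0.le)
    have : volume.real U ≤ m := by
      have := measureReal_mono (μ := (volume : Measure E)) (subset_closure (s := U))
        hU.closure.measure_lt_top.ne
      rw [hm]; linarith
    nlinarith
  have h3 : s * m + s ^ 2 / s ≤ 2 * (s * m) := by
    have h4 : s ^ 2 / s = s := by field_simp
    have h5 : s * 1 ≤ s * m := mul_le_mul_of_nonneg_left (by rw [hm]; linarith [measureReal_nonneg (μ := (volume : Measure E)) (s := closure U)]) hs0.le
    linarith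
  have hR0 : 0 < R' := lt_of_lt_of_le one_pos (le_max_right ..)
  have h7 : R' * (2 * (s * m)) = θ / 2 := by rw [hs]; field_simp; ring
  have h8 := mul_le_mul_of_nonneg_left (h2.trans h3) hR0.le
  calc ∫ y, |u y - v y| ≤ _ := h1
    _ ≤ θ / 2 := h8.trans h7.le
    _ < θ := by linarith

/-- Equal gradients on `U` and equal values off `U` give equality. -/
theorem eq_of_gradient_eq [Nontrivial E] (hU : Bornology.IsBounded U) (hu : LipschitzWith L u)
    (hv : LipschitzWith L v) (h0 : ∀ x ∉ U, u x = v x)
    (hg : ∫ x in U, ‖gradient u x - gradient v x‖ ^ 2 ≤ 0) : u = v := by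
  funext x
  refine sub_eq_zero.1 (abs_eq_zero.1 (le_antisymm ?_ (abs_nonneg _)))
  refine le_of_forall_gt_imp_ge_of_dense fun ε hε => ?_
  obtain ⟨η, hη, h⟩ := forall_exists_close (L := L) hU hε
  exact h u v hu hv h0 (hg.trans hη.le) x

theorem gain_pos (hκ : 0 < κ) :
    0 < Real.exp (-((L : ℝ) ^ 2) / (2 * κ)) / (8 * κ * (1 + (L : ℝ) ^ 2 / (2 * κ))) := by
  positivity

/-- Minimisers are unique. -/
theorem IsMin.eq_of_energy_le [Nontrivial E] (hκ : 0 < κ) (hU : Bornology.IsBounded U)
    (hu : IsMin κ L U u) (hv : LipschitzWith L v) (h0 : ∀ x ∉ U, v x = u x)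
    (he : energy κ L U v ≤ energy κ L U u) : v = u := by
  refine eq_of_gradient_eq hU hv hu.1 h0 ?_
  have h1 := energy_mid hκ hU hv hu.1
  have h2 := hu.2 _ (lipschitzWith_mid hv hu.1) (fun x hx => by rw [h0 x hx]; ring)
  have h3 : Real.exp (-((L : ℝ) ^ 2) / (2 * κ)) / (8 * κ * (1 + (L : ℝ) ^ 2 / (2 * κ))) *
      ∫ x in U, ‖gradient v x - gradient u x‖ ^ 2 ≤ 0 := by linarith
  exact nonpos_of_mul_nonpos_right h3 (gain_pos hκ) |>.trans le_rfl

/-- Comparison of minimisers. -/
theorem IsMin.le_of_le [Nontrivial E] (hκ : 0 < κ) (hU : Bornology.IsBounded U)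
    (hu : IsMin κ L U u) (hv : IsMin κ L U v) (h : ∀ x ∉ U, u x ≤ v x) : ∀ x, u x ≤ v x := by
  have hmin : LipschitzWith L fun x => min (u x) (v x) := by simpa using hu.1.min hv.1
  have hmax : LipschitzWith L fun x => max (u x) (v x) := by simpa using hu.1.max hv.1
  have h1 := hv.2 _ hmax (fun x hx => max_eq_right (h x hx))
  have h2 := energy_lattice hκ hU hu.1 hv.1
  have he : energy κ L U (fun x => min (u x) (v x)) ≤ energy κ L U u := by linarith
  have := hu.eq_of_energy_le hκ hU hmin (fun x hx => min_eq_left (h x hx)) he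
  intro x
  rw [← congrFun this x]
  exact min_le_right _ _

/-- Comparison with a function which is minimal from above. -/
theorem IsMin.le_super [Nontrivial E] (hκ : 0 < κ) (hU : Bornology.IsBounded U)
    (hu : IsMin κ L U u) {ψ : E → ℝ} (hψ : LipschitzWith L ψ)
    (hsup : ∀ w, LipschitzWith L w → (∀ x, ψ x ≤ w x) → (∀ x ∉ U, w x = ψ x) →
      energy κ L U ψ ≤ energy κ L U w)
    (h : ∀ x ∉ U, u x ≤ ψ x) : ∀ x, u x ≤ ψ x := by
  have hmin : LipschitzWith L fun x => min (u x) (ψ x) := by simpa using hu.1.min hψ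
  have hmax : LipschitzWith L fun x => max (u x) (ψ x) := by simpa using hu.1.max hψ
  have h1 := hsup _ hmax (fun x => le_max_right _ _) (fun x hx => max_eq_right (h x hx))
  have h2 := energy_lattice hκ hU hu.1 hψ
  have he : energy κ L U (fun x => min (u x) (ψ x)) ≤ energy κ L U u := by linarith
  have := hu.eq_of_energy_le hκ hU hmin (fun x hx => min_eq_left (h x hx)) he
  intro x
  rw [← congrFun this x]
  exact min_le_right _ _

/-- Comparison with a function which is minimal from below. -/
theorem IsMin.ge_sub [Nontrivial E] (hκ : 0 < κ) (hU : Bornology.IsBounded U)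
    (hu : IsMin κ L U u) {ψ : E → ℝ} (hψ : LipschitzWith L ψ)
    (hsub : ∀ w, LipschitzWith L w → (∀ x, w x ≤ ψ x) → (∀ x ∉ U, w x = ψ x) →
      energy κ L U ψ ≤ energy κ L U w)
    (h : ∀ x ∉ U, ψ x ≤ u x) : ∀ x, ψ x ≤ u x := by
  have hmin : LipschitzWith L fun x => min (u x) (ψ x) := by simpa using hu.1.min hψ
  have hmax : LipschitzWith L fun x => max (u x) (ψ x) := by simpa using hu.1.max hψ
  have h1 := hsub _ hmin (fun x => min_le_right _ _) (fun x hx => min_eq_right (h x hx))
  have h2 := energy_lattice hκ hU hu.1 hψ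
  have he : energy κ L U (fun x => max (u x) (ψ x)) ≤ energy κ L U u := by linarith
  have := hu.eq_of_energy_le hκ hU hmax (fun x hx => max_eq_left (h x hx)) he
  intro x
  rw [← congrFun this x]
  exact le_max_right _ _

/-- A minimiser on a set is a minimiser on every measurable subset. -/
theorem IsMin.mono (hκ : 0 < κ) (hU : Bornology.IsBounded U) (hUm : MeasurableSet U) {V : Set E}
    (hVU : V ⊆ U) (hVm : IsOpen V) (hu : IsMin κ L U u) : IsMin κ L V u := by
  refine ⟨hu.1, fun w hw h0 => ?_⟩
  have h := hu.2 w hw (fun x hx => h0 x fun hV => hx (hVU hV))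
  have split : ∀ g : E → ℝ, LipschitzWith L g →
      energy κ L U g = energy κ L V g + ∫ x in U \ V, dens κ L (gradient g x) := fun g hg => by
    have hi := integrableOn_dens hκ hU hg
    rw [energy, energy, ← setIntegral_union disjoint_sdiff_right (hUm.diff hVm.measurableSet)
      (hi.mono_set hVU) (hi.mono_set diff_subset), union_diff_cancel hVU]
  have hEq : ∫ x in U \ V, dens κ L (gradient w x) = ∫ x in U \ V, dens κ L (gradient u x) := by
    refine setIntegral_congr_ae (hUm.diff hVm.measurableSet) ?_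
    filter_upwards [hw.ae_differentiableAt, hu.1.ae_differentiableAt,
      (lipschitzWith_one_norm.comp (hw.sub hu.1)).ae_differentiableAt] with x a b c hx
    have hm : IsLocalMin (fun y => ‖w y - u y‖) x :=
      Eventually.of_forall fun z => by simp [h0 x hx.2]
    have hb : HasFDerivAt (fun y => ‖w y - u y‖) (0 : E →L[ℝ] ℝ) x := by
      have := hm.fderiv_eq_zero; rw [← this]; exact c.hasFDerivAt
    have hd : HasFDerivAt (fun y => w y - u y) (0 : E →L[ℝ] ℝ) x := by
      rw [hasFDerivAt_iff_isLittleO_nhds_zero] at hb ⊢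
      simp only [h0 x hx.2, sub_self, norm_zero, zero_apply, sub_zero] at hb ⊢
      exact hb.of_norm_left
    have h3 := hd.fderiv
    rw [fderiv_fun_sub a b, sub_eq_zero] at h3
    simp [gradient, h3]
  rw [split u hu.1, split w hw, hEq] at h
  linarith

/-- Adding a constant keeps minimisers. -/
theorem IsMin.add_const (hu : IsMin κ L U u) (c : ℝ) : IsMin κ L U fun x => u x + c := by
  have hg : ∀ g : E → ℝ, energy κ L U (fun x => g x + c) = energy κ L U g := fun g => by
    simp [energy, gradient, fderiv_add_const]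
  refine ⟨by simpa using hu.1.add (LipschitzWith.const c), fun w hw h0 => ?_⟩
  rw [hg u, ← show energy κ L U (fun x => w x + -c) = energy κ L U w by
    simp [energy, gradient, fderiv_add_const]]
  exact hu.2 _ (by simpa using hw.add (LipschitzWith.const (-c))) (fun x hx => by rw [h0 x hx]; ring)

end Vale.Agent.P080C1.Exist
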